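import Mathlib

/-!
# Row 103: abstract interface between the dynamics half and the analysis half

`Sys Ω ν` : a finite measure space with the geodesic flow `X`, the rotation action `R`, a second
flow `W` commuting with both (for the product argument), the distance `d` from the vertices and
the anisotropic distances `r s`.
-/

set_option autoImplicit false
open MeasureTheory Filter Topology

namespace Crest.Agent.R103D

/-- a family of maps is strongly continuous at `0` on `L²` -/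
def SCont {Ω : Type*} [MeasurableSpace Ω] (ν : Measure Ω) (T : ℝ → Ω → Ω) : Prop :=
  ∀ f : Ω → ℂ, MemLp f 2 ν →
    Tendsto (fun t => eLpNorm (fun p => f (T t p) - f p) 2 ν) (𝓝 0) (𝓝 0)

/-- a measure preserving, strongly continuous flow (the flow laws hold everywhere) -/
structure MFlow {Ω : Type*} [MeasurableSpace Ω] (ν : Measure Ω) (T : ℝ → Ω → Ω) : Prop where
  mp : ∀ t, MeasurePreserving (T t) ν ν
  zero : ∀ p, T 0 p = p
  add : ∀ s t p, T (s + t) p = T s (T t p)
  cont : SCont ν T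

/-- the flow in direction `θ` -/
def dirFlow {Ω : Type*} (X R : ℝ → Ω → Ω) (θ t : ℝ) (p : Ω) : Ω := R (-θ) (X t (R θ p))

/-- the abstract system -/
structure Sys (Ω : Type*) [MeasurableSpace Ω] (ν : Measure Ω) where
  /-- geodesic flow -/
  X : ℝ → Ω → Ω
  /-- rotation of the frame -/
  R : ℝ → Ω → Ω
  /-- second flow -/
  W : ℝ → Ω → Ω
  /-- distance from the vertices -/
  d : Ω → ℝ
  /-- anisotropic distances -/
  r : ℝ → Ω → ℝ
  /-- constant of the local law -/
  K : ℝ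
  /-- constant of the measure bound -/
  C : ℝ
  one_le_K : 1 ≤ K
  C_nonneg : 0 ≤ C
  flowX : MFlow ν X
  flowR : MFlow ν R
  flowW : MFlow ν W
  R_per : ∀ p, R (2 * Real.pi) p = p
  WX : ∀ s t p, W s (X t p) = X t (W s p)
  WR : ∀ s t p, W s (R t p) = R t (W s p)
  d_meas : Measurable d
  d_R : ∀ t p, d (R t p) = d p
  d_W : ∀ t p, d (W t p) = d p
  d_X : ∀ t p, |d (X t p) - d p| ≤ |t|
  /-- the local translation law away from the vertices -/
  loc : ∀ θ₁ θ₂ θ₃ t₁ t₂ t₃ : ℝ,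
    (t₁ : ℂ) * Complex.exp (θ₁ * Complex.I) + (t₂ : ℂ) * Complex.exp (θ₂ * Complex.I) =
      (t₃ : ℂ) * Complex.exp (θ₃ * Complex.I) →
    ∀ᵐ p ∂ν, K * (|t₁| + |t₂|) < d p →
      dirFlow X R θ₁ t₁ (dirFlow X R θ₂ t₂ p) = dirFlow X R θ₃ t₃ p
  r_meas : ∀ s, Measurable (r s)
  r_W : ∀ s t p, r s (W t p) = r s p
  r_le : ∀ s, 0 < s → ∀ p, s * r s p ≤ d p
  r_X : ∀ s, 0 < s → ∀ t p, |r s (X t p) - r s p| ≤ s * |t|
  r_Y : ∀ s, 0 < s → ∀ t, ∀ᵐ p ∂ν,
    |r s (dirFlow X R (Real.pi / 2) t p) - r s p| ≤ K * |t| / s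
  r_small : ∀ s, 0 < s → s ≤ 1 → ∀ ρ, 0 < ρ → ν {p | r s p < ρ} ≤ ENNReal.ofReal (C * ρ ^ 2)

/-- The statement proved by the analysis half: a bounded function invariant under the diagonal
flow `X t ∘ W t` is invariant under every directional flow. -/
def AnalysisThm : Prop :=
  ∀ (Ω : Type) [MeasurableSpace Ω] (ν : Measure Ω) [IsFiniteMeasure ν] (S : Sys Ω ν)
    (s : Set Ω), MeasurableSet s →
    (∀ t, (fun p => S.X t (S.W t p)) ⁻¹' s =ᵐ[ν] s) →
    ∀ θ t, dirFlow S.X S.R θ t ⁻¹' s =ᵐ[ν] s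

end Crest.Agent.R103D
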