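import Crest.Agent.R103D.Fold

/-!
# Row 103: plane geometry of the triangle
-/

set_option autoImplicit false
open MeasureTheory Filter Topology Set
open scoped RealInnerProductSpace
open Crest.AnalysisR.Billiard

namespace Crest.Agent.R103D

lemma eq_zero_of_inner {a b v w : Plane} (ha : a ≠ 0) (hav : ⟪a, v⟫ = 0) (hbv : ⟪b, v⟫ ≠ 0)
    (haw : ⟪a, w⟫ = 0) (hbw : ⟪b, w⟫ = 0) : w = 0 := by
  rw [inner_plane] at *
  have hc : a 0 * b 1 - a 1 * b 0 ≠ 0 := by
    intro hc
    apply ha
    apply plane_ext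
    · apply mul_right_cancel₀ hbv
      simp only [PiLp.zero_apply]
      linear_combination (v 1) * hc + (b 0) * hav
    · apply mul_right_cancel₀ hbv
      simp only [PiLp.zero_apply]
      linear_combination (-v 0) * hc + (b 1) * hav
  apply plane_ext
  · apply mul_left_cancel₀ hc
    simp only [PiLp.zero_apply]
    linear_combination (b 1) * haw - (a 1) * hbw
  · apply mul_left_cancel₀ hc
    simp only [PiLp.zero_apply]
    linear_combination (-b 0) * haw + (a 0) * hbw

lemma fin3_1 (i : Fin 3) : i + 1 + 1 = i + 2 := by fin_cases i <;> rfl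
lemma fin3_2 (i : Fin 3) : i + 1 + 2 = i := by fin_cases i <;> rfl
lemma fin3_3 (i : Fin 3) : i + 2 + 1 = i := by fin_cases i <;> rfl
lemma fin3_4 (i : Fin 3) : i + 2 + 2 = i + 1 := by fin_cases i <;> rfl
lemma fin3_cases (i j : Fin 3) : j = i ∨ j = i + 1 ∨ j = i + 2 := by
  fin_cases i <;> fin_cases j <;> decide

/-- barycentric coordinates -/
lemma bary {A n : Fin 3 → Plane} (orth : ∀ i, ⟪n i, sideVec A i⟫ = 0)
    (pos : ∀ i, 0 < ⟪n i, A i - A (i + 1)⟫) (i : Fin 3) (x : Plane) :
    x - A i = (⟪n (i + 1), x - A (i + 1 + 1)⟫ / ⟪n (i + 1), A (i + 1) - A (i + 1 + 1)⟫) •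
        (A (i + 1) - A i) +
      (⟪n (i + 2), x - A (i + 2 + 1)⟫ / ⟪n (i + 2), A (i + 2) - A (i + 2 + 1)⟫) •
        (A (i + 2) - A i) := by
  have o1 := orth (i + 1)
  have o2 := orth (i + 2)
  have p1 := pos (i + 1)
  have p2 := pos (i + 2)
  simp only [sideVec, fin3_1, fin3_2, fin3_3, fin3_4] at *
  rw [← sub_eq_zero]
  have hn : n (i + 1) ≠ 0 := by intro h; simp [h] at p1
  refine eq_zero_of_inner (a := n (i + 1)) (b := n (i + 2)) (v := A (i + 2) - A i) hn ?_ p2.ne' ?_ ?_
  · rw [← neg_sub, inner_neg_right, o1, neg_zero]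
  · simp only [inner_sub_right, inner_add_right, real_inner_smul_right] at *
    have e : ⟪n (i + 1), A i⟫ = ⟪n (i + 1), A (i + 2)⟫ := by linarith
    rw [e]
    field_simp
    ring
  · simp only [inner_sub_right, inner_add_right, real_inner_smul_right] at *
    have e : ⟪n (i + 2), A (i + 1)⟫ = ⟪n (i + 2), A i⟫ := by linarith
    rw [e]
    field_simp
    ring

lemma inner_J (u w : Plane) : ⟪J u, w⟫ = u 0 * w 1 - u 1 * w 0 := by
  rw [inner_plane]; simp; ring

lemma norm_J (u : Plane) : ‖J u‖ = ‖u‖ := by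
  have h : ‖J u‖ ^ 2 = ‖u‖ ^ 2 := by rw [normsq_plane, normsq_plane]; simp; ring
  exact (pow_left_inj₀ (norm_nonneg _) (norm_nonneg _) two_ne_zero).1 h

lemma det_ne_zero {A : Fin 3 → Plane} (hA : AffineIndependent ℝ A) :
    (A 1 0 - A 0 0) * (A 2 1 - A 0 1) - (A 1 1 - A 0 1) * (A 2 0 - A 0 0) ≠ 0 := by
  intro hD
  set u0 := A 1 0 - A 0 0 with hu0
  set u1 := A 1 1 - A 0 1 with hu1
  set v0 := A 2 0 - A 0 0 with hv0
  set v1 := A 2 1 - A 0 1 with hv1
  have h := affineIndependent_iff.1 hA Finset.univ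
    ![(u0 * v0 + u1 * v1) - (u0 ^ 2 + u1 ^ 2), -(u0 * v0 + u1 * v1), u0 ^ 2 + u1 ^ 2]
    (by simp [Fin.sum_univ_three]; ring) (by
      apply plane_ext
      · simp [Fin.sum_univ_three]
        have e1 : A 1 0 = A 0 0 + u0 := by rw [hu0]; ring
        have e2 : A 2 0 = A 0 0 + v0 := by rw [hv0]; ring
        rw [e1, e2]
        linear_combination (-u1) * hD
      · simp [Fin.sum_univ_three]
        have e1 : A 1 1 = A 0 1 + u1 := by rw [hu1]; ring
        have e2 : A 2 1 = A 0 1 + v1 := by rw [hv1]; ring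
        rw [e1, e2]
        linear_combination (u0) * hD) 2 (Finset.mem_univ _)
  simp at h
  have h0 : u0 = 0 := by nlinarith
  have h1 : u1 = 0 := by nlinarith
  have : A 1 = A 0 := plane_ext (by linarith) (by linarith)
  exact absurd (hA.injective this) (by decide)

theorem exists_tri {A : Fin 3 → Plane} (hA : AffineIndependent ℝ A) : ∃ T : Tri, T.A = A := by
  have hD := det_ne_zero hA
  set D := (A 1 0 - A 0 0) * (A 2 1 - A 0 1) - (A 1 1 - A 0 1) * (A 2 0 - A 0 0) with hDdef
  have hJ : ∀ i, ⟪J (sideVec A i), A i - A (i + 1)⟫ = D := by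
    intro i
    rw [inner_J, hDdef]
    fin_cases i <;> simp [sideVec] <;> ring
  have hs : ∀ i, ‖sideVec A i‖ ≠ 0 := by
    intro i hi
    rw [← norm_J, norm_eq_zero] at hi
    have := hJ i
    rw [hi, inner_zero_left] at this
    exact hD this.symm
  set n : Fin 3 → Plane := fun i => (D / |D| / ‖sideVec A i‖) • J (sideVec A i) with hn
  have hD' : 0 < |D| := abs_pos.2 hD
  have norm_n : ∀ i, ‖n i‖ = 1 := by
    intro i
    have := hs i
    simp only [hn, norm_smul, norm_J, norm_div, Real.norm_eq_abs, abs_abs, abs_norm]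
    field_simp
  have orth : ∀ i, ⟪n i, sideVec A i⟫ = 0 := by
    intro i
    simp only [hn, real_inner_smul_left, inner_J]; ring
  have pos : ∀ i, 0 < ⟪n i, A i - A (i + 1)⟫ := by
    intro i
    have h1 : 0 < ‖sideVec A i‖ := (norm_nonneg _).lt_of_ne' (hs i)
    simp only [hn, real_inner_smul_left, hJ]
    have : D / |D| / ‖sideVec A i‖ * D = D ^ 2 / (|D| * ‖sideVec A i‖) := by field_simp
    rw [this]; positivity
  obtain ⟨C, hC0, hC⟩ : ∃ C : ℝ, 0 < C ∧ ∀ i j,
      ‖A j - A i‖ / ⟪n j, A j - A (j + 1)⟫ ≤ C := by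
    obtain ⟨C, hC⟩ := (Set.finite_range fun z : Fin 3 × Fin 3 =>
      ‖A z.2 - A z.1‖ / ⟪n z.2, A z.2 - A (z.2 + 1)⟫).bddAbove
    exact ⟨max C 1, by positivity, fun i j => (hC ⟨(i, j), rfl⟩).trans (le_max_left _ _)⟩
  have hdist : ∀ x : Plane, (∀ i, 0 ≤ ⟪n i, x - A (i + 1)⟫) → ∀ k,
      Metric.infDist x (range A) ≤
        C * (⟪n (k + 1), x - A (k + 1 + 1)⟫ + ⟪n (k + 2), x - A (k + 2 + 1)⟫) := by
    intro x hx k
    refine (Metric.infDist_le_dist_of_mem (mem_range_self k)).trans ?_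
    rw [dist_eq_norm, bary orth pos k x]
    refine (norm_add_le _ _).trans ?_
    rw [norm_smul, norm_smul, Real.norm_of_nonneg (div_nonneg (hx _) (pos _).le),
      Real.norm_of_nonneg (div_nonneg (hx _) (pos _).le), mul_add]
    apply add_le_add
    · rw [div_mul_eq_mul_div, mul_div_assoc, mul_comm]
      exact mul_le_mul_of_nonneg_right (hC _ _) (hx _)
    · rw [div_mul_eq_mul_div, mul_div_assoc, mul_comm]
      exact mul_le_mul_of_nonneg_right (hC _ _) (hx _)
  refine ⟨⟨A, n, min 1 (1 / (2 * C)), hA, norm_n, orth, pos, by positivity, min_le_left _ _, ?_⟩,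
    rfl⟩
  intro x hx
  obtain ⟨i, hi⟩ := Finite.exists_min fun i => ⟪n i, x - A (i + 1)⟫
  refine ⟨i, fun j hj => ?_⟩
  have key : Metric.infDist x (range A) ≤ C * (2 * ⟪n j, x - A (j + 1)⟫) := by
    rcases fin3_cases i j with h | rfl | rfl
    · exact absurd h hj
    · have := hdist x hx (i + 2)
      rw [fin3_3, fin3_4] at this
      refine this.trans (mul_le_mul_of_nonneg_left ?_ hC0.le)
      linarith [hi (i + 1)]
    · have := hdist x hx (i + 1)
      rw [fin3_1, fin3_2] at this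
      refine this.trans (mul_le_mul_of_nonneg_left ?_ hC0.le)
      linarith [hi (i + 2)]
  calc _ ≤ 1 / (2 * C) * (C * (2 * ⟪n j, x - A (j + 1)⟫)) :=
        mul_le_mul (min_le_right _ _) key Metric.infDist_nonneg (by positivity)
    _ = _ := by field_simp

namespace Tri

variable (T : Tri)

/-- barycentric coordinate -/
noncomputable def lam (i : Fin 3) (x : Plane) : ℝ := T.h i x / T.h i (T.A i)

lemma bary (i : Fin 3) (x : Plane) :
    x - T.A i = T.lam (i + 1) x • (T.A (i + 1) - T.A i) + T.lam (i + 2) x • (T.A (i + 2) - T.A i) :=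
  R103D.bary T.orth T.pos i x

lemma lam_sum (i : Fin 3) (x : Plane) : T.lam i x + T.lam (i + 1) x + T.lam (i + 2) x = 1 := by
  have h1 := congrArg (fun w => ⟪T.n i, w⟫) (T.bary i x)
  simp only [inner_add_right, real_inner_smul_right, ← h_sub] at h1
  rw [T.h_vertex (i := i) (j := i + 1) (by fin_cases i <;> decide),
    T.h_vertex (i := i) (j := i + 2) (by fin_cases i <;> decide)] at h1
  have hp := T.h_self_pos i
  have : T.lam i x = T.h i x / T.h i (T.A i) := rfl
  rw [this]
  field_simp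
  linarith

lemma convex_h (i : Fin 3) (x y : Plane) (a b : ℝ) (hab : a + b = 1) :
    T.h i (a • x + b • y) = a * T.h i x + b * T.h i y := by
  have : a • x + b • y - T.A (i + 1) = a • (x - T.A (i + 1)) + b • (y - T.A (i + 1)) := by
    have hb : b = 1 - a := by linarith
    subst hb; module
  rw [h, this, inner_add_right, real_inner_smul_right, real_inner_smul_right]; rfl

lemma convexHull_eq : convexHull ℝ (range T.A) = {x | ∀ i, 0 ≤ T.h i x} := by
  apply Subset.antisymm
  · apply convexHull_min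
    · rintro _ ⟨j, rfl⟩ i
      by_cases hij : j = i
      · rw [hij]; exact (T.h_self_pos i).le
      · exact (T.h_vertex hij).ge
    · intro x hx y hy a b ha hb hab i
      rw [T.convex_h i x y a b hab]
      exact add_nonneg (mul_nonneg ha (hx i)) (mul_nonneg hb (hy i))
  · intro x hx
    have hl : ∀ i, 0 ≤ T.lam i x := fun i => div_nonneg (hx i) (T.h_self_pos i).le
    have hs := T.lam_sum 0 x
    have hb := T.bary 0 x
    have e : x = ∑ i, T.lam i x • T.A i := by
      rw [Fin.sum_univ_three]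
      have h0 : T.lam 0 x = 1 - T.lam 1 x - T.lam 2 x := by
        simp only [zero_add] at hs; linarith
      rw [h0]
      simp only [zero_add] at hb
      rw [sub_eq_iff_eq_add] at hb
      conv_lhs => rw [hb]
      module
    rw [e]
    refine (convex_convexHull ℝ _).sum_mem (fun i _ => hl i) ?_
      fun i _ => subset_convexHull ℝ _ (mem_range_self i)
    rw [Fin.sum_univ_three]; simpa using hs

lemma isOpen_intP : IsOpen {x | ∀ i, 0 < T.h i x} := by
  have : {x | ∀ i, 0 < T.h i x} = ⋂ i, {x | 0 < T.h i x} := by ext p; simp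
  rw [this]
  exact isOpen_iInter_of_finite fun i => isOpen_lt continuous_const (T.continuous_h i)

lemma interior_eq : interior (convexHull ℝ (range T.A)) = {x | ∀ i, 0 < T.h i x} := by
  rw [convexHull_eq]
  apply Subset.antisymm
  · intro x hx i
    have hc : Continuous fun s : ℝ => x + s • T.n i := by fun_prop
    have h1 : ∀ᶠ s : ℝ in 𝓝 0, x + s • T.n i ∈ interior {x | ∀ i, 0 ≤ T.h i x} :=
      hc.continuousAt.eventually_mem (isOpen_interior.mem_nhds (by simpa using hx))
    obtain ⟨s, hs1, hs2⟩ :=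
      ((h1.filter_mono (nhdsWithin_le_nhds (s := Iio 0))).and self_mem_nhdsWithin).exists
    have h3 := interior_subset hs1 i
    rw [h_add, real_inner_smul_right, inner_n_n] at h3
    have : s < 0 := hs2
    linarith
  · exact interior_maximal (fun x hx i => (hx i).le) T.isOpen_intP

lemma bounded : ∃ D : ℝ, ∀ x : Plane, (∀ i, 0 ≤ T.h i x) → ‖x‖ ≤ D := by
  have := ((Set.finite_range T.A).isCompact_convexHull ℝ).isBounded
  rw [convexHull_eq] at this
  exact this.exists_norm_le

lemma mem_openSide (i : Fin 3) (x : Plane) :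
    x ∈ openSide T.A i ↔ T.h i x = 0 ∧ ∀ j, j ≠ i → 0 < T.h j x := by
  have n1 : i + 1 ≠ i := by fin_cases i <;> decide
  have n2 : i + 2 ≠ i := by fin_cases i <;> decide
  have n3 : i + 2 ≠ i + 1 := by fin_cases i <;> decide
  constructor
  · rintro ⟨s, ⟨hs0, hs1⟩, rfl⟩
    have e : ∀ j, T.h j (AffineMap.lineMap (T.A (i + 1)) (T.A (i + 2)) s) =
        (1 - s) * T.h j (T.A (i + 1)) + s * T.h j (T.A (i + 2)) := by
      intro j
      rw [AffineMap.lineMap_apply_module, T.convex_h _ _ _ _ _ (by ring)]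
    simp only [e]
    refine ⟨by rw [T.h_vertex n1, T.h_vertex n2]; ring, fun j hj => ?_⟩
    rcases fin3_cases i j with h | rfl | rfl
    · exact absurd h hj
    · rw [T.h_vertex n3]; nlinarith [T.h_self_pos (i + 1)]
    · rw [T.h_vertex n3.symm]; nlinarith [T.h_self_pos (i + 2)]
  · rintro ⟨h0, h1⟩
    have hs := T.lam_sum i x
    have hb := T.bary (i + 1) x
    rw [fin3_1, fin3_2] at hb
    have l0 : T.lam i x = 0 := by simp [lam, h0]
    have l1 : 0 < T.lam (i + 1) x := div_pos (h1 _ n1) (T.h_self_pos _)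
    have l2 : 0 < T.lam (i + 2) x := div_pos (h1 _ n2) (T.h_self_pos _)
    refine ⟨T.lam (i + 2) x, ⟨l2, by linarith⟩, ?_⟩
    rw [l0, zero_smul, add_zero, sub_eq_iff_eq_add] at hb
    show AffineMap.lineMap _ _ _ = x
    rw [AffineMap.lineMap_apply_module]
    conv_rhs => rw [hb]
    module

lemma n_ne_zero (i : Fin 3) : T.n i ≠ 0 := by
  intro h; have := T.norm_n i; rw [h] at this; simp at this

lemma sideVec_ne_zero (i : Fin 3) : sideVec T.A i ≠ 0 := by
  intro h
  rw [sideVec, sub_eq_zero] at h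
  exact absurd (T.indep.injective h) (by fin_cases i <;> decide)

lemma mirror_eq (i : Fin 3) (v : Plane) : mirror (sideVec T.A i) v = T.L i v := by
  have he : ⟪sideVec T.A i, sideVec T.A i⟫ ≠ 0 := by
    simpa using T.sideVec_ne_zero i
  have ho := T.orth i
  rw [← sub_eq_zero]
  refine eq_zero_of_inner (T.n_ne_zero i) ho he ?_ ?_
  · rw [inner_sub_right, inner_L, mirror, inner_sub_right, real_inner_smul_right, ho]; ring
  · rw [mirror, L]
    simp only [inner_sub_right, real_inner_smul_right]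
    rw [real_inner_comm (T.n i), ho, real_inner_comm v]
    field_simp
    ring

lemma exists_intP : ∃ x : Plane, ∀ i, 0 < T.h i x := by
  refine ⟨(1 / 2 : ℝ) • T.A 0 + (1 / 2 : ℝ) • ((1 / 2 : ℝ) • T.A 1 + (1 / 2 : ℝ) • T.A 2),
    fun i => ?_⟩
  rw [T.convex_h _ _ _ _ _ (by norm_num), T.convex_h _ _ _ _ _ (by norm_num)]
  have h0 : ∀ j, 0 ≤ T.h i (T.A j) := by
    intro j
    by_cases hij : j = i
    · rw [hij]; exact (T.h_self_pos i).le
    · exact (T.h_vertex hij).ge
  have h1 := T.h_self_pos i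
  have := h0 0
  have := h0 1
  have := h0 2
  fin_cases i <;> simp at * <;> linarith

lemma eq_smul_J {n u : Plane} (hn : ‖n‖ = 1) (h : ⟪n, u⟫ = 0) : u = ⟪J n, u⟫ • J n := by
  have h1 : n 0 ^ 2 + n 1 ^ 2 = 1 := by rw [← normsq_plane, hn]; norm_num
  rw [inner_plane] at h
  rw [inner_J]
  apply plane_ext
  · simp; linear_combination (n 0) * h - (u 0) * h1
  · simp; linear_combination (n 1) * h - (u 1) * h1

lemma inner_J_J (u v : Plane) : ⟪J u, J v⟫ = ⟪u, v⟫ := by
  rw [inner_plane, inner_plane]; simp; ring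

/-- two reflections compose to an irrational rotation -/
lemma exists_rot (hirr : ∃ i : Fin 3,
      Irrational (EuclideanGeometry.angle (T.A (i + 1)) (T.A i) (T.A (i + 2)) / Real.pi)) :
    ∃ (j k : Fin 3) (β : ℝ), Irrational (β / (2 * Real.pi)) ∧
      ∀ v, T.L j (T.L k v) = frv v true (ex β) := by
  obtain ⟨i, hi⟩ := hirr
  set α := EuclideanGeometry.angle (T.A (i + 1)) (T.A i) (T.A (i + 2)) with hα
  set a := T.n (i + 1) with ha
  set b := T.n (i + 2) with hb
  have ha1 : a 0 ^ 2 + a 1 ^ 2 = 1 := T.n_sq _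
  have hb1 : b 0 ^ 2 + b 1 ^ 2 = 1 := T.n_sq _
  set c : ℝ := b 0 * a 0 + b 1 * a 1 with hc
  set s : ℝ := b 0 * a 1 - b 1 * a 0 with hs
  have hcs : c ^ 2 + s ^ 2 = 1 := by
    rw [hc, hs]; linear_combination (b 0 ^ 2 + b 1 ^ 2) * ha1 + hb1
  set z : ℂ := ⟨c ^ 2 - s ^ 2, 2 * c * s⟩ with hz
  have hz1 : ‖z‖ = 1 := by
    have : ‖z‖ ^ 2 = 1 ^ 2 := by
      rw [Complex.sq_norm, Complex.normSq_apply, hz]
      simp only
      linear_combination (c ^ 2 + s ^ 2 + 1) * hcs
    exact (pow_left_inj₀ (norm_nonneg _) zero_le_one two_ne_zero).1 this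
  have hex : ex z.arg = z := by
    have := Complex.norm_mul_exp_arg_mul_I z
    rwa [hz1, Complex.ofReal_one, one_mul] at this
  refine ⟨i + 1, i + 2, z.arg, ?_, fun v => ?_⟩
  · have hcos : Real.cos z.arg = c ^ 2 - s ^ 2 := by
      have := congrArg Complex.re hex
      rwa [ex, Complex.exp_ofReal_mul_I_re] at this
    have hu : ⟪b, T.A (i + 1) - T.A i⟫ = 0 := by
      have := T.orth (i + 2); rwa [sideVec, fin3_3, fin3_4] at this
    have hv : ⟪a, T.A (i + 2) - T.A i⟫ = 0 := by
      have := T.orth (i + 1)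
      rw [sideVec, fin3_1, fin3_2, ← neg_sub, inner_neg_right, neg_eq_zero] at this
      exact this
    have hu0 : T.A (i + 1) - T.A i ≠ 0 := by
      rw [sub_ne_zero]; intro h
      exact absurd (T.indep.injective h) (by fin_cases i <;> decide)
    have hv0 : T.A (i + 2) - T.A i ≠ 0 := by
      rw [sub_ne_zero]; intro h
      exact absurd (T.indep.injective h) (by fin_cases i <;> decide)
    have eu := eq_smul_J (T.norm_n _) hu
    have ev := eq_smul_J (T.norm_n _) hv
    set l := ⟪J b, T.A (i + 1) - T.A i⟫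
    set m := ⟪J a, T.A (i + 2) - T.A i⟫
    have hl : l ≠ 0 := by intro h; rw [h, zero_smul] at eu; exact hu0 eu
    have hm : m ≠ 0 := by intro h; rw [h, zero_smul] at ev; exact hv0 ev
    have hca : Real.cos α ^ 2 = c ^ 2 := by
      rw [hα, EuclideanGeometry.angle, InnerProductGeometry.cos_angle, vsub_eq_sub, vsub_eq_sub,
        eu, ev, real_inner_smul_left, real_inner_smul_right, inner_J_J, norm_smul, norm_smul,
        norm_J, norm_J, T.norm_n, T.norm_n, inner_plane, ← hc, div_pow, Real.norm_eq_abs,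
        Real.norm_eq_abs, mul_one, mul_one, mul_pow, mul_pow, mul_pow, sq_abs, sq_abs]
      field_simp
    have h2 : Real.cos (2 * α) = Real.cos z.arg := by
      rw [Real.cos_two_mul, hcos, hca]; linarith
    obtain ⟨k, hk | hk⟩ := Real.cos_eq_cos_iff.1 h2
    · have : z.arg / (2 * Real.pi) = α / Real.pi + k := by
        rw [hk]; field_simp; ring
      rw [this]; exact hi.add_intCast k
    · have : z.arg / (2 * Real.pi) = k - α / Real.pi := by
        rw [hk]; field_simp
      rw [this]; exact hi.intCast_sub k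
  · rw [hex]
    apply plane_ext
    · simp only [L, inner_plane, ← ha, ← hb, frv_0, hz, sg_true, hc, hs]
      simp
      linear_combination (v 0 * (-1 + 2 * b 0 ^ 2) + v 1 * (2 * b 0 * b 1)) * ha1 +
        (v 0 * (a 0 ^ 2 - a 1 ^ 2) + v 1 * (2 * a 0 * a 1)) * hb1
    · simp only [L, inner_plane, ← ha, ← hb, frv_1, hz, sg_true, hc, hs]
      simp
      linear_combination (v 1 * (-1 + 2 * b 1 ^ 2) + v 0 * (2 * b 0 * b 1)) * ha1 +
        (v 1 * (a 1 ^ 2 - a 0 ^ 2) + v 0 * (2 * a 0 * a 1)) * hb1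

end Tri

end Crest.Agent.R103D
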