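import Crest.Agent.R103D.Orb
import Crest.Agent.R103D.Geom

/-!
# Row 103: a complete orbit gives a chain
-/

set_option autoImplicit false
open MeasureTheory Filter Topology Set
open scoped RealInnerProductSpace
open Crest.AnalysisR.Billiard

namespace Crest.Agent.R103D

/-- enumeration of a discrete closed two-sided unbounded set of reals -/
lemma exists_enum {Z : Set ℝ} (hfin : ∀ a b, (Icc a b ∩ Z).Finite)
    (hup : ∀ a, ∃ z ∈ Z, a < z) (hdown : ∀ a, ∃ z ∈ Z, z < a) :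
    ∃ t : ℤ → ℝ, StrictMono t ∧ (∀ k, t k ∈ Z) ∧ (∀ k u, t k < u → u < t (k + 1) → u ∉ Z) ∧
      t 0 ≤ 0 ∧ 0 < t 1 ∧ Tendsto t atTop atTop ∧ Tendsto t atBot atBot := by
  have hn : ∀ a, ∃ b, b ∈ Z ∧ a < b ∧ ∀ u ∈ Z, a < u → b ≤ u := by
    intro a
    obtain ⟨z, hz, haz⟩ := hup a
    have hf : (Ioc a z ∩ Z).Finite := (hfin a z).subset (inter_subset_inter_left _ Ioc_subset_Icc_self)
    obtain ⟨b, hb, hb'⟩ := hf.exists_minimal ⟨z, ⟨haz, le_rfl⟩, hz⟩
    refine ⟨b, hb.2, hb.1.1, fun u hu hau => ?_⟩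
    by_contra hlt
    have hlt := not_le.1 hlt
    exact absurd (hb' ⟨⟨hau, hlt.le.trans hb.1.2⟩, hu⟩ hlt.le) (not_le.2 hlt)
  have hp : ∀ a, ∃ b, b ∈ Z ∧ b < a ∧ ∀ u ∈ Z, u < a → u ≤ b := by
    intro a
    obtain ⟨z, hz, haz⟩ := hdown a
    have hf : (Ico z a ∩ Z).Finite := (hfin z a).subset (inter_subset_inter_left _ Ico_subset_Icc_self)
    obtain ⟨b, hb, hb'⟩ := hf.exists_maximal ⟨z, ⟨le_rfl, haz⟩, hz⟩
    refine ⟨b, hb.2, hb.1.2, fun u hu hau => ?_⟩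
    by_contra hlt
    have hlt := not_le.1 hlt
    exact absurd (hb' ⟨⟨hb.1.1.trans hlt.le, hau⟩, hu⟩ hlt.le) (not_le.2 hlt)
  choose nx nx1 nx2 nx3 using hn
  choose pv pv1 pv2 pv3 using hp
  have np : ∀ z ∈ Z, nx (pv z) = z := fun z hz => by
    refine le_antisymm (nx3 _ _ hz (pv2 z)) (not_lt.1 fun h => ?_)
    exact absurd (pv3 z _ (nx1 _) h) (not_le.2 (nx2 _))
  have pn : ∀ z ∈ Z, pv (nx z) = z := fun z hz => by
    refine le_antisymm (not_lt.1 fun h => ?_) (pv3 _ _ hz (nx2 z))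
    exact absurd (nx3 z _ (pv1 _) h) (not_le.2 (pv2 _))
  let e : Equiv.Perm Z := ⟨fun z => ⟨nx z, nx1 _⟩, fun z => ⟨pv z, pv1 _⟩,
    fun z => Subtype.ext (pn z z.2), fun z => Subtype.ext (np z z.2)⟩
  let t : ℤ → ℝ := fun k => ((e ^ k) ⟨pv (nx 0), pv1 _⟩ : Z)
  have hs : ∀ k, t (k + 1) = nx (t k) := fun k => by
    simp only [t]; rw [add_comm, zpow_one_add]; rfl
  have hZ : ∀ k, t k ∈ Z := fun k => Subtype.property _
  have hm : StrictMono t := strictMono_int_of_lt_succ fun k => by rw [hs]; exact nx2 _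
  have h0 : t 0 = pv (nx 0) := by simp [t]
  refine ⟨t, hm, hZ, fun k u h1 h2 hu => ?_, ?_, ?_, ?_, ?_⟩
  · rw [hs] at h2; exact absurd (nx3 _ u hu h1) (not_le.2 h2)
  · rw [h0]
    exact not_lt.1 fun h => absurd (nx3 0 _ (pv1 _) h) (not_le.2 (pv2 _))
  · rw [← zero_add (1 : ℤ), hs, h0, np _ (nx1 _)]; exact nx2 _
  · refine tendsto_atTop_atTop_of_monotone hm.monotone fun b => ?_
    by_contra hb
    push Not at hb
    refine (infinite_of_injective_forall_mem (f := fun n : ℕ => t n)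
      (hm.injective.comp Nat.cast_injective) fun n => ?_).not_finite (hfin (t 0) b)
    exact ⟨⟨hm.monotone (by omega), (hb _).le⟩, hZ _⟩
  · refine tendsto_atBot_atBot_of_monotone hm.monotone fun b => ?_
    by_contra hb
    push Not at hb
    refine (infinite_of_injective_forall_mem (f := fun n : ℕ => t (-n))
      (hm.injective.comp (neg_injective.comp Nat.cast_injective)) fun n => ?_).not_finite
      (hfin b (t 0))
    exact ⟨⟨(hb _).le, hm.monotone (by omega)⟩, hZ _⟩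

lemma exists_index {t : ℤ → ℝ} (h1 : Tendsto t atTop atTop) (h2 : Tendsto t atBot atBot) (τ : ℝ) :
    ∃ k, t k ≤ τ ∧ τ < t (k + 1) := by
  obtain ⟨b, hb⟩ := eventually_atTop.1 (h1.eventually (eventually_gt_atTop τ))
  obtain ⟨k, hk, hk'⟩ := Int.exists_greatest_of_bdd (P := fun k => t k ≤ τ)
    ⟨b, fun z hz => not_lt.1 fun h => absurd (hb z h.le) (not_lt.2 hz)⟩
    (h2.eventually (eventually_le_atBot τ)).exists
  exact ⟨k, hk, not_le.1 fun h => by have := hk' _ h; omega⟩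

namespace Tri

variable (T : Tri)

/-- local structure of an orbit at a collision -/
lemma side_local {q : St} (hq : q ∈ T.M0) (hd : 0 < T.d q) (hi : q ∉ T.Int) :
    ∃ i, T.h i q.1.1 = 0 ∧ (∀ j, j ≠ i → 0 < T.h j q.1.1) ∧ ∀ᶠ τ : ℝ in 𝓝 0,
      (∀ j, j ≠ i → 0 < T.h j (T.step τ q).1.1) ∧
      (0 ≤ τ * ⟪T.n i, (q.1.2 : Plane)⟫ → T.step τ q = shift τ q) ∧
      (τ * ⟪T.n i, (q.1.2 : Plane)⟫ < 0 → T.step τ q = T.refl i (shift τ q)) ∧
      T.h i (T.step τ q).1.1 = |τ * ⟪T.n i, (q.1.2 : Plane)⟫| := by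
  obtain ⟨i, hn⟩ := T.exists_near hq
  have hκ := mul_pos T.κ_pos hd
  have h1 := hn q.1.1 (by simpa using hκ)
  have h0 : T.h i q.1.1 = 0 := by
    refine le_antisymm (not_lt.1 fun h => hi fun j => ?_) (T.nonneg_of_not_bad (hq i))
    by_cases hj : j = i
    · rwa [hj]
    · exact h1 j hj
  have hb : q.2 ≠ false := fun h => hq i (Or.inr ⟨h0, h⟩)
  refine ⟨i, h0, h1, ?_⟩
  filter_upwards [ev_small hκ] with τ hτ
  have ha : ‖(τ : ℂ)‖ < T.κ * T.d q := by
    rw [Complex.norm_real, Real.norm_eq_abs]; linarith [abs_nonneg τ]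
  have hs : T.h i (shift τ q).1.1 = τ * ⟪T.n i, (q.1.2 : Plane)⟫ := by
    rw [shift_pos, h_add, h0, fr_ofReal, real_inner_smul_right, zero_add]
  have hB : T.Bad i (shift τ q) ↔ τ * ⟪T.n i, (q.1.2 : Plane)⟫ < 0 := by
    rw [Bad, hs, shift_bit]; simp [hb]
  refine ⟨hn _ ((T.dist_step hq ha).trans_lt ha), ?_⟩
  rcases T.step_spec hq hn ha with ⟨h2, h3⟩ | ⟨h2, h3⟩ <;> rw [hB] at h2
  · exact ⟨fun _ => h3, fun h => absurd h h2, by rw [h3, hs, abs_of_nonneg (not_lt.1 h2)]⟩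
  · exact ⟨fun h => absurd h2 (not_lt.2 h), fun _ => h3, by
      rw [h3, refl_pos, h_σ, hs, abs_of_neg h2]⟩

lemma tendsto_sub_nhds (x : ℝ) : Tendsto (fun y : ℝ => y - x) (𝓝 x) (𝓝 0) := by
  have : Continuous fun y : ℝ => y - x := by fun_prop
  simpa using this.tendsto x

variable {T}

lemma ev_int {p : St} (hp : p ∈ T.Good) {x : ℝ} (hx : T.phi x p ∈ T.Int) :
    ∀ᶠ y in 𝓝 x, T.phi y p ∈ T.Int ∧ T.phi y p = shift ((y - x : ℝ) : ℂ) (T.phi x p) := by
  filter_upwards [(T.locOrb_phi hp x).ev,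
    (tendsto_sub_nhds x).eventually (T.eventually_step_eq_shift hx)] with y h1 h2
  have h3 : T.phi y p = T.step ((y - x : ℝ) : ℂ) (T.phi x p) := h1.1
  rw [h3, h2.2]; exact ⟨h2.1, rfl⟩

lemma ev_side {p : St} (hp : p ∈ T.Good) {x : ℝ} (hx : T.phi x p ∉ T.Int) :
    ∃ i, T.h i (T.phi x p).1.1 = 0 ∧ (∀ j, j ≠ i → 0 < T.h j (T.phi x p).1.1) ∧ ∀ᶠ y in 𝓝 x,
      (∀ j, j ≠ i → 0 < T.h j (T.phi y p).1.1) ∧
      (0 ≤ (y - x) * ⟪T.n i, ((T.phi x p).1.2 : Plane)⟫ →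
        ((T.phi y p).1.2 : Plane) = (T.phi x p).1.2) ∧
      ((y - x) * ⟪T.n i, ((T.phi x p).1.2 : Plane)⟫ < 0 →
        ((T.phi y p).1.2 : Plane) = T.L i (T.phi x p).1.2) ∧
      T.h i (T.phi y p).1.1 = |(y - x) * ⟪T.n i, ((T.phi x p).1.2 : Plane)⟫| := by
  obtain ⟨i, h0, h1, h2⟩ := T.side_local (T.phi_mem_M0 hp x) (T.d_phi_pos hp x) hx
  refine ⟨i, h0, h1, ?_⟩
  filter_upwards [(T.locOrb_phi hp x).ev, (tendsto_sub_nhds x).eventually h2] with y h3 h4
  have h3 : T.phi y p = T.step ((y - x : ℝ) : ℂ) (T.phi x p) := h3.1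
  rw [h3]
  exact ⟨h4.1, fun h => by rw [h4.2.1 h]; rfl, fun h => by rw [h4.2.2.1 h]; rfl, h4.2.2.2⟩

lemma not_grazing {p : St} (hp : p ∈ T.Good) (hi : p ∈ T.Int) (x : ℝ) (i : Fin 3)
    (h0 : T.h i (T.phi x p).1.1 = 0) : ⟪T.n i, ((T.phi x p).1.2 : Plane)⟫ ≠ 0 := by
  let Gz : ℝ → Prop := fun u =>
    ∃ i, T.h i (T.phi u p).1.1 = 0 ∧ ⟪T.n i, ((T.phi u p).1.2 : Plane)⟫ = 0
  have key : Gz x ↔ Gz 0 := by
    refine (isPreconnected_univ (α := ℝ)).induction₂ (fun a b => Gz a ↔ Gz b) ?_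
      (fun _ _ _ _ _ _ h1 h2 => h1.trans h2) (fun _ _ _ _ h => h.symm) (mem_univ x) (mem_univ 0)
    intro a _
    rw [nhdsWithin_univ]
    by_cases ha : T.phi a p ∈ T.Int
    · filter_upwards [ev_int hp ha] with y hy
      exact iff_of_false (fun ⟨j, hj, _⟩ => (ha j).ne' hj) fun ⟨j, hj, _⟩ => (hy.1 j).ne' hj
    · obtain ⟨j, a0, a1, a2⟩ := ev_side hp ha
      filter_upwards [a2] with y ⟨b1, b2, _, b4⟩
      by_cases hb : ⟪T.n j, ((T.phi a p).1.2 : Plane)⟫ = 0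
      · refine iff_of_true ⟨j, a0, hb⟩ ⟨j, by rw [b4, hb]; simp, ?_⟩
        rw [b2 (by rw [hb]; simp), hb]
      · by_cases hy : y = a
        · rw [hy]
        · refine iff_of_false ?_ ?_
          · rintro ⟨k, k1, k2⟩
            by_cases hk : k = j
            · exact hb (hk ▸ k2)
            · exact (a1 k hk).ne' k1
          · rintro ⟨k, k1, -⟩
            by_cases hk : k = j
            · rw [hk, b4, abs_eq_zero] at k1
              exact mul_ne_zero (sub_ne_zero.2 hy) hb k1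
            · exact (b1 k hk).ne' k1
  intro hb
  obtain ⟨j, hj, -⟩ := key.1 ⟨i, h0, hb⟩
  rw [phi_zero] at hj
  exact (hi j).ne' hj

lemma finite_coll {p : St} (hp : p ∈ T.Good) (hi : p ∈ T.Int) (a b : ℝ) :
    (Icc a b ∩ {u | T.phi u p ∉ T.Int}).Finite := by
  refine (isCompact_Icc (a := a) (b := b)).induction_on
    (p := fun s => (s ∩ {u | T.phi u p ∉ T.Int}).Finite) (by simp)
    (fun s t hst ht => ht.subset (inter_subset_inter_left _ hst))
    (fun s t hs ht => by rw [union_inter_distrib_right]; exact hs.union ht) fun x _ => ?_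
  have : ∀ᶠ y in 𝓝 x, y ≠ x → T.phi y p ∈ T.Int := by
    by_cases hx : T.phi x p ∈ T.Int
    · exact (ev_int hp hx).mono fun y hy _ => hy.1
    · obtain ⟨j, a0, -, a2⟩ := ev_side hp hx
      filter_upwards [a2] with y ⟨b1, _, _, b4⟩ hy k
      by_cases hk : k = j
      · rw [hk, b4, abs_pos]
        exact mul_ne_zero (sub_ne_zero.2 hy) (not_grazing hp hi x j a0)
      · exact b1 k hk
  refine ⟨_, mem_nhdsWithin_of_mem_nhds this, (finite_singleton x).subset fun y hy => ?_⟩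
  by_contra hne
  exact hy.2 (hy.1 hne)

lemma straight {p : St} (hp : p ∈ T.Good) {a b : ℝ} (h : ∀ u ∈ Ioo a b, T.phi u p ∈ T.Int)
    {s t : ℝ} (hs : s ∈ Ioo a b) (ht : t ∈ Ioo a b) :
    T.phi t p = shift ((t - s : ℝ) : ℂ) (T.phi s p) := by
  refine (isPreconnected_Ioo (a := a) (b := b)).induction₂
    (fun s t => T.phi t p = shift ((t - s : ℝ) : ℂ) (T.phi s p)) (fun x hx => ?_) ?_ ?_ hs ht
  · exact mem_nhdsWithin_of_mem_nhds ((ev_int hp (h x hx)).mono fun y hy => hy.2)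
  · intro x y z _ _ _ h1 h2
    rw [h2, h1, shift_shift]; congr 1; push_cast; ring
  · intro x y _ _ h1
    rw [h1, shift_shift, ← Complex.ofReal_add]; simp [shift_zero]

lemma straight_pos {p : St} (hp : p ∈ T.Good) {a b : ℝ} (h : ∀ u ∈ Ioo a b, T.phi u p ∈ T.Int)
    {s t : ℝ} (hs : s ∈ Ioo a b) (ht : t ∈ Icc a b) :
    (T.phi t p).1.1 = (T.phi s p).1.1 + (t - s) • ((T.phi s p).1.2 : Plane) := by
  have h1 : EqOn (fun t => (T.phi t p).1.1)
      (fun t => (T.phi s p).1.1 + (t - s) • ((T.phi s p).1.2 : Plane)) (Ioo a b) := by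
    intro t ht
    simp only
    rw [straight hp h hs ht, shift_pos, fr_ofReal]
  have h2 := h1.closure (T.continuous_phi_pos p) (by fun_prop)
  rw [closure_Ioo (hs.1.trans hs.2).ne] at h2
  exact h2 ht

lemma exists_coll {p : St} (hp : p ∈ T.Good) :
    ∃ D : ℝ, 0 < D ∧ ∀ a, ∃ u ∈ Ioo a (a + D), T.phi u p ∉ T.Int := by
  obtain ⟨D, hD⟩ := T.bounded
  have hb : ∀ u, ‖(T.phi u p).1.1‖ ≤ D := fun u =>
    hD _ fun i => T.nonneg_of_not_bad (T.phi_mem_M0 hp u i)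
  have h0 : 0 ≤ D := (norm_nonneg _).trans (hb 0)
  refine ⟨2 * D + 3, by linarith, fun a => ?_⟩
  by_contra hc
  push Not at hc
  have := straight_pos hp hc (s := a + 1) (t := a + 2 * D + 2) ⟨by linarith, by linarith⟩
    ⟨by linarith, by linarith⟩
  have h1 := norm_sub_le (T.phi (a + 2 * D + 2) p).1.1 (T.phi (a + 1) p).1.1
  rw [this, add_sub_cancel_left, norm_smul, norm_sph, ← this, Real.norm_eq_abs,
    abs_of_pos (by linarith)] at h1
  linarith [hb (a + 2 * D + 2), hb (a + 1)]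

theorem exists_chain {p : St} (hp : p ∈ T.Good) (hi : p ∈ T.Int) :
    ∃ c : Chain T.A, c.Through p.1 ∧ ∀ τ, T.phi τ p ∈ T.Int → c.IsStateAt τ (T.phi τ p).1 := by
  obtain ⟨D, hD0, hD⟩ := exists_coll hp
  obtain ⟨t, hm, hZ, hgap, ht0, ht1, htop, hbot⟩ := exists_enum (finite_coll hp hi)
    (fun a => by obtain ⟨u, hu, hu'⟩ := hD a; exact ⟨u, hu', hu.1⟩)
    (fun a => by obtain ⟨u, hu, hu'⟩ := hD (a - D); exact ⟨u, hu', by linarith [hu.2]⟩)
  choose side s0 s1 s2 using fun k => ev_side hp (hZ k)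
  have hI : ∀ k, ∀ u ∈ Ioo (t k) (t (k + 1)), T.phi u p ∈ T.Int := fun k u hu =>
    not_not.1 (hgap k u hu.1 hu.2)
  have hlt : ∀ k, t k < t (k + 1) := fun k => hm (by omega)
  have hq : ∀ k, ∀ u ∈ Ioo (t k) (t (k + 1)), (T.phi (t (k + 1)) p).1.1 - (T.phi (t k) p).1.1 =
      (t (k + 1) - t k) • ((T.phi u p).1.2 : Plane) := by
    intro k u hu
    rw [straight_pos hp (hI k) hu (right_mem_Icc.2 (hlt k).le),
      straight_pos hp (hI k) hu (left_mem_Icc.2 (hlt k).le)]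
    module
  have hv : ∀ k, ∀ u ∈ Ioo (t k) (t (k + 1)), (t (k + 1) - t k)⁻¹ •
      ((T.phi (t (k + 1)) p).1.1 - (T.phi (t k) p).1.1) = ((T.phi u p).1.2 : Plane) := by
    intro k u hu
    rw [hq k u hu, smul_smul, inv_mul_cancel₀ (sub_pos.2 (hlt k)).ne', one_smul]
  have hmid : ∀ k, (t k + t (k + 1)) / 2 ∈ Ioo (t k) (t (k + 1)) := fun k =>
    ⟨by linarith [hlt k], by linarith [hlt k]⟩
  let c : Chain T.A :=
    { t := t
      q := fun k => (T.phi (t k) p).1.1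
      side := side
      strictMono_t := hm
      t_zero_le := ht0
      t_one_pos := ht1
      tendsto_atTop := htop
      tendsto_atBot := hbot
      mem_side := fun k => (T.mem_openSide _ _).2 ⟨s0 k, s1 k⟩
      side_ne := fun k hk => by
        have a1 := congrArg (T.h (side k))
          (straight_pos hp (hI k) (hmid k) (right_mem_Icc.2 (hlt k).le))
        have a2 := congrArg (T.h (side k))
          (straight_pos hp (hI k) (hmid k) (left_mem_Icc.2 (hlt k).le))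
        have a3 := hI k _ (hmid k) (side k)
        have a4 := s0 (k + 1)
        rw [hk] at a4
        rw [h_add, real_inner_smul_right] at a1 a2
        rw [a4] at a1
        rw [s0 k] at a2
        linarith
      unit_speed := fun k => by
        rw [dist_comm, dist_eq_norm, hq k _ (hmid k), norm_smul, norm_sph, Real.norm_eq_abs,
          abs_of_pos (sub_pos.2 (hlt k)), mul_one]
      reflect := fun k => by
        have hb := not_grazing hp hi _ _ (s0 (k + 1))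
        have e1 : ∀ᶠ y in 𝓝[>] (t (k + 1)), y ∈ Ioo (t (k + 1)) (t (k + 1 + 1)) :=
          Ioo_mem_nhdsGT (hlt _)
        have e2 : ∀ᶠ y in 𝓝[<] (t (k + 1)), y ∈ Ioo (t k) (t (k + 1)) :=
          Ioo_mem_nhdsLT (hlt _)
        obtain ⟨y, y1, -, y2, y3, -⟩ := (e1.and ((s2 (k + 1)).filter_mono nhdsWithin_le_nhds)).exists
        obtain ⟨z, z1, -, z2, z3, -⟩ := (e2.and ((s2 (k + 1)).filter_mono nhdsWithin_le_nhds)).exists
        rw [mirror_eq, hv k z z1, (by ring : k + 2 = k + 1 + 1), hv (k + 1) y y1]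
        have y4 := sub_pos.2 y1.1
        have z4 := sub_neg.2 z1.2
        rcases lt_or_gt_of_ne hb with h | h
        · rw [y3 (mul_neg_of_pos_of_neg y4 h), z2 (mul_pos_of_neg_of_neg z4 h).le]
        · rw [y2 (mul_pos y4 h).le, z3 (mul_neg_of_neg_of_pos z4 h), L_L] }
  have key : ∀ τ, T.phi τ p ∈ T.Int → c.IsStateAt τ (T.phi τ p).1 := by
    intro τ hτ
    obtain ⟨k, k1, k2⟩ := exists_index htop hbot τ
    have k3 : τ ∈ Ioo (t k) (t (k + 1)) :=
      ⟨lt_of_le_of_ne k1 fun h => hZ k (h ▸ hτ), k2⟩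
    have e : c.vel k = (T.phi τ p).1.2 := hv k τ k3
    refine ⟨k, k1, k2, ?_, e.symm⟩
    rw [e]
    show _ = (T.phi (t k) p).1.1 + (τ - t k) • _
    rw [straight_pos hp (hI k) k3 (left_mem_Icc.2 (hlt k).le)]
    module
  refine ⟨c, ?_, key⟩
  have := key 0 (by rwa [phi_zero])
  rwa [phi_zero] at this

end Tri

end Crest.Agent.R103D
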