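import Crest.Agent.R103D.Geom

/-!
# Row 103: chains through a phase point are unique
-/

set_option autoImplicit false
open MeasureTheory Filter Topology Set
open scoped RealInnerProductSpace
open Crest.AnalysisR.Billiard

namespace Crest.Agent.R103D

namespace Tri

variable {T : Tri}

lemma ch_side (c : Chain T.A) (k : ℤ) :
    T.h (c.side k) (c.q k) = 0 ∧ ∀ j, j ≠ c.side k → 0 < T.h j (c.q k) :=
  (T.mem_openSide _ _).1 (c.mem_side k)

lemma ch_dt (c : Chain T.A) (k : ℤ) : 0 < c.t (k + 1) - c.t k :=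
  sub_pos.2 (c.strictMono_t (by omega))

lemma ch_succ (c : Chain T.A) (k : ℤ) :
    c.q (k + 1) = c.q k + (c.t (k + 1) - c.t k) • c.vel k := by
  rw [Chain.vel, smul_smul, mul_inv_cancel₀ (ch_dt c k).ne', one_smul]; abel

lemma ch_nonneg (c : Chain T.A) (k : ℤ) (j : Fin 3) : 0 ≤ T.h j (c.q k) := by
  by_cases h : j = c.side k
  · rw [h]; exact (ch_side c k).1.ge
  · exact ((ch_side c k).2 j h).le

lemma ch_int (c : Chain T.A) (k : ℤ) {s : ℝ} (h0 : 0 < s) (h1 : s < c.t (k + 1) - c.t k)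
    (j : Fin 3) : 0 < T.h j (c.q k + s • c.vel k) := by
  have hd := ch_dt c k
  have e := congrArg (T.h j) (ch_succ c k)
  rw [h_add, real_inner_smul_right] at e ⊢
  have a0 := ch_nonneg c k j
  have a1 := ch_nonneg c (k + 1) j
  have key : (c.t (k + 1) - c.t k) * (T.h j (c.q k) + s * ⟪T.n j, c.vel k⟫) =
      (c.t (k + 1) - c.t k - s) * T.h j (c.q k) + s * T.h j (c.q (k + 1)) := by
    rw [e]; ring
  apply pos_of_mul_pos_of_pos_left' hd
  rw [key]
  by_cases h : j = c.side k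
  · have := (ch_side c (k + 1)).2 j (by rw [h]; exact (c.side_ne k).symm)
    have := mul_pos h0 this
    have := mul_nonneg (sub_pos.2 h1).le a0
    linarith
  · have := (ch_side c k).2 j h
    have := mul_pos (sub_pos.2 h1) this
    have := mul_nonneg h0.le a1
    linarith
where
  pos_of_mul_pos_of_pos_left' {a b : ℝ} (ha : 0 < a) (h : 0 < a * b) : 0 < b :=
    (mul_pos_iff_of_pos_left ha).1 h

lemma ch_reflect (c : Chain T.A) (k : ℤ) : c.vel (k + 1) = T.L (c.side (k + 1)) (c.vel k) := by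
  rw [← mirror_eq, Chain.vel, Chain.vel, ← c.reflect k, add_assoc]; rfl

lemma ch_side_eq (c c' : Chain T.A) {k : ℤ} (h : c.q k = c'.q k) : c.side k = c'.side k := by
  by_contra hne
  have h1 := (ch_side c' k).2 _ hne
  rw [← h, (ch_side c k).1] at h1
  exact lt_irrefl _ h1

lemma ch_index (c : Chain T.A) {τ : ℝ} {k l : ℤ} (h1 : c.t k ≤ τ) (h2 : τ < c.t (k + 1))
    (h3 : c.t l ≤ τ) (h4 : τ < c.t (l + 1)) : k = l := by
  have a := c.strictMono_t.lt_iff_lt.1 (h1.trans_lt h4)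
  have b := c.strictMono_t.lt_iff_lt.1 (h3.trans_lt h2)
  omega

lemma ch_fwd (c c' : Chain T.A) {k : ℤ} (hq : c.q k = c'.q k) (hv : c.vel k = c'.vel k) :
    c'.t (k + 1) - c'.t k ≤ c.t (k + 1) - c.t k := by
  by_contra hlt
  have := ch_int c' k (ch_dt c k) (not_le.1 hlt) (c.side (k + 1))
  rw [← hq, ← hv, ← ch_succ, (ch_side c (k + 1)).1] at this
  exact lt_irrefl _ this

lemma ch_bwd (c c' : Chain T.A) {k : ℤ} (hq : c.q (k + 1) = c'.q (k + 1))
    (hv : c.vel k = c'.vel k) : c'.t (k + 1) - c'.t k ≤ c.t (k + 1) - c.t k := by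
  by_contra hlt
  have hlt := not_le.1 hlt
  have := ch_int c' k (s := (c'.t (k + 1) - c'.t k) - (c.t (k + 1) - c.t k)) (by linarith)
    (by linarith [ch_dt c k]) (c.side k)
  have e : c'.q k + ((c'.t (k + 1) - c'.t k) - (c.t (k + 1) - c.t k)) • c'.vel k = c.q k := by
    rw [sub_smul, ← add_sub_assoc, ← ch_succ, ← hq, ← hv, ch_succ]; abel
  rw [e, (ch_side c k).1] at this
  exact lt_irrefl _ this

lemma ch_through (c : Chain T.A) {p : Phase} (h : c.Through p) :
    p.1 = c.q 0 + (0 - c.t 0) • c.vel 0 ∧ (p.2 : Plane) = c.vel 0 := by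
  obtain ⟨k, h1, h2, h3⟩ := h
  have : k = 0 := ch_index c h1 h2 c.t_zero_le c.t_one_pos
  subst this; exact h3

lemma ch_base (c c' : Chain T.A) {p : Phase} (h : c.Through p) (h' : c'.Through p) :
    c'.t 0 ≤ c.t 0 := by
  by_contra hlt
  have hlt := not_le.1 hlt
  obtain ⟨a1, a2⟩ := ch_through c h
  obtain ⟨b1, b2⟩ := ch_through c' h'
  have := ch_int c 0 (s := c'.t 0 - c.t 0) (by linarith)
    (by linarith [c'.t_zero_le, c.t_one_pos, (show c.t (0 + 1) = c.t 1 by simp)]) (c'.side 0)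
  have e : c.q 0 + (c'.t 0 - c.t 0) • c.vel 0 = c'.q 0 := by
    rw [← b2, a2] at b1
    have : c'.q 0 = p.1 - (0 - c'.t 0) • c.vel 0 := by rw [b1]; abel
    rw [this, a1]; module
  rw [e, (ch_side c' 0).1] at this
  exact lt_irrefl _ this

lemma ch_eq (c c' : Chain T.A) {p : Phase} (h : c.Through p) (h' : c'.Through p) (k : ℤ) :
    c.t k = c'.t k ∧ c.q k = c'.q k ∧ c.vel k = c'.vel k := by
  induction k using Int.induction_on with
  | zero =>
    have ht : c.t 0 = c'.t 0 := le_antisymm (ch_base c' c h' h) (ch_base c c' h h')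
    obtain ⟨a1, a2⟩ := ch_through c h
    obtain ⟨b1, b2⟩ := ch_through c' h'
    have hv : c.vel 0 = c'.vel 0 := a2.symm.trans b2
    refine ⟨ht, ?_, hv⟩
    rw [a1, ht, hv] at b1
    exact add_right_cancel b1
  | succ k ih =>
    obtain ⟨h1, h2, h3⟩ := ih
    have e := le_antisymm (ch_fwd c' c h2.symm h3.symm) (ch_fwd c c' h2 h3)
    have hq : c.q (k + 1) = c'.q (k + 1) := by rw [ch_succ, ch_succ, e, h2, h3]
    exact ⟨by linarith, hq, by rw [ch_reflect, ch_reflect, ch_side_eq c c' hq, h3]⟩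
  | pred k ih =>
    obtain ⟨h1, h2, h3⟩ := ih
    have ek : (-(k : ℤ)) = (-(k : ℤ) - 1) + 1 := by ring
    rw [ek] at h1 h2 h3
    generalize -(k : ℤ) - 1 = l at *
    have hv : c.vel l = c'.vel l := by
      rw [ch_reflect, ch_reflect, ch_side_eq c c' h2] at h3
      rw [← T.L_L (c'.side (l + 1)) (c.vel l), h3, L_L]
    have e := le_antisymm (ch_bwd c' c h2.symm hv.symm) (ch_bwd c c' h2 hv)
    refine ⟨by linarith, ?_, hv⟩
    rw [ch_succ, ch_succ, e, hv] at h2
    exact add_right_cancel h2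

theorem chain_unique (c c' : Chain T.A) {p : Phase} (h : c.Through p) (h' : c'.Through p)
    (τ : ℝ) (y y' : Phase) (hy : c.IsStateAt τ y) (hy' : c'.IsStateAt τ y') : y = y' := by
  obtain ⟨k, a1, a2, a3, a4⟩ := hy
  obtain ⟨l, b1, b2, b3, b4⟩ := hy'
  rw [← (ch_eq c c' h h' _).1] at b1 b2
  obtain rfl := ch_index c a1 a2 b1 b2
  obtain ⟨e1, e2, e3⟩ := ch_eq c c' h h' k
  exact Prod.ext (by rw [a3, b3, e1, e2, e3]) (Subtype.ext (by rw [a4, b4, e3]))

end Tri

end Crest.Agent.R103D
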