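import Crest.Agent.R103D.Good

/-!
# Row 103: the anisotropic distance `r s`
-/

set_option autoImplicit false
open MeasureTheory Filter Topology Set
open scoped RealInnerProductSpace
open Crest.AnalysisR.Billiard

namespace Crest.Agent.R103D

namespace Tri

variable (T : Tri)

lemma measurable_r (s : ℝ) : Measurable (T.r s) :=
  Measurable.iInf fun q => measurable_const.add
    ((T.continuous_d.measurable.comp (T.measurable_phi q)).div_const s)

lemma r_bdd {s : ℝ} (hs : 0 < s) (p : St) :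
    BddBelow (range fun q : ℚ => s * |(q : ℝ)| + T.d (T.phi q p) / s) :=
  ⟨0, by
    rintro _ ⟨q, rfl⟩
    have := T.d_nonneg (T.phi q p)
    positivity⟩

lemma r_le_real {s : ℝ} (hs : 0 < s) (p : St) (t : ℝ) :
    T.r s p ≤ s * |t| + T.d (T.phi t p) / s := by
  have hc : Continuous fun t : ℝ => s * |t| + T.d (T.phi t p) / s :=
    (continuous_const.mul continuous_abs).add ((T.continuous_d_phi p).div_const s)
  refine Rat.denseRange_cast.induction_on (p := fun t : ℝ => T.r s p ≤ s * |t| +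
    T.d (T.phi t p) / s) t (isClosed_le continuous_const hc) fun q => ?_
  exact ciInf_le (T.r_bdd hs p) q

lemma le_r {s c : ℝ} {p : St} (h : ∀ t : ℝ, c ≤ s * |t| + T.d (T.phi t p) / s) : c ≤ T.r s p :=
  le_ciInf fun q => h q

lemma mul_r_le {s : ℝ} (hs : 0 < s) (p : St) : s * T.r s p ≤ T.d p := by
  have := T.r_le_real hs p 0
  rw [phi_zero, abs_zero, mul_zero, zero_add, le_div_iff₀ hs] at this
  linarith

lemma r_phi_ge {s : ℝ} (hs : 0 < s) (t : ℝ) (p : St) : T.r s p - s * |t| ≤ T.r s (T.phi t p) := by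
  refine T.le_r fun u => ?_
  have := T.r_le_real hs p (u + t)
  rw [phi_add] at this
  have h2 : s * |u + t| ≤ s * (|u| + |t|) := mul_le_mul_of_nonneg_left (abs_add_le u t) hs.le
  linarith

lemma abs_r_phi {s : ℝ} (hs : 0 < s) (t : ℝ) (p : St) :
    |T.r s (T.phi t p) - T.r s p| ≤ s * |t| := by
  have h1 := T.r_phi_ge hs t p
  have h2 := T.r_phi_ge hs (-t) (T.phi t p)
  rw [← phi_add, neg_add_cancel, phi_zero, abs_neg] at h2
  rw [abs_le]; constructor <;> linarith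

lemma r_fl_ge {s : ℝ} (hs : 0 < s) (θ τ : ℝ) {p : St} (hp : p ∈ T.Good)
    (hp' : rot θ p ∈ T.Good) (hq : T.fl θ τ p ∈ T.Good) :
    T.r s p - 1 / T.κ * |τ| / s ≤ T.r s (T.fl θ τ p) := by
  have hκ := T.κ_pos
  refine T.le_r fun t => ?_
  by_cases h : ∀ u ∈ uIcc 0 t, |τ| < T.κ * T.d (T.phi u p)
  · have h0 := h 0 left_mem_uIcc
    rw [phi_zero] at h0
    have hn : ‖(τ : ℂ) * ex θ‖ = |τ| := by simp [norm_ex]
    rw [T.fl_eq_step hp' h0] at hq ⊢
    rw [T.phi_step_comm hp hq (by rwa [hn])]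
    have h1 := T.d_step (T.phi_mem_M0 hp t) (a := (τ : ℂ) * ex θ)
      (by rw [hn]; exact h t right_mem_uIcc)
    rw [hn] at h1
    have h2 := T.r_le_real hs p t
    have h3 : |τ| ≤ 1 / T.κ * |τ| :=
      le_mul_of_one_le_left (abs_nonneg _) (by rw [le_div_iff₀ hκ]; linarith [T.κ_le])
    have h4 : (T.d (T.phi t p) - 1 / T.κ * |τ|) / s ≤ T.d (T.step (τ * ex θ) (T.phi t p)) / s :=
      div_le_div_of_nonneg_right (by linarith) hs.le
    rw [sub_div] at h4
    linarith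
  · push Not at h
    obtain ⟨u, hu, h⟩ := h
    have h2 := T.r_le_real hs p u
    have h3 : s * |u| ≤ s * |t| := mul_le_mul_of_nonneg_left (abs_le_of_mem_uIcc hu) hs.le
    have h4 : T.d (T.phi u p) / s ≤ 1 / T.κ * |τ| / s := by
      apply div_le_div_of_nonneg_right _ hs.le
      rw [one_div, ← div_eq_inv_mul, le_div_iff₀ hκ]; linarith
    have h5 : 0 ≤ T.d (T.phi t (T.fl θ τ p)) / s := div_nonneg (T.d_nonneg _) hs.le
    linarith

lemma fl_neg_fl (θ τ : ℝ) (p : St) : T.fl θ (-τ) (T.fl θ τ p) = p := by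
  rw [fl, fl, rot_rot_neg, ← phi_add, neg_add_cancel, phi_zero, rot_neg_rot]

lemma ae_abs_r_fl {s : ℝ} (hs : 0 < s) (θ τ : ℝ) :
    ∀ᵐ p ∂T.mu, |T.r s (T.fl θ τ p) - T.r s p| ≤ 1 / T.κ * |τ| / s := by
  filter_upwards [T.ae_good, T.ae_rot_good θ, (T.mp_fl θ τ).quasiMeasurePreserving.ae T.ae_good,
    (T.mp_fl θ τ).quasiMeasurePreserving.ae (T.ae_rot_good θ)] with p h1 h2 h3 h4
  have a1 := T.r_fl_ge hs θ τ h1 h2 h3
  have a2 := T.r_fl_ge hs θ (-τ) h3 h4 (by rwa [fl_neg_fl])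
  rw [fl_neg_fl, abs_neg] at a2
  rw [abs_le]; constructor <;> linarith

lemma exists_mu_r_lt : ∃ C : ℝ, 0 ≤ C ∧ ∀ s, 0 < s → s ≤ 1 → ∀ ρ, 0 < ρ →
    T.mu {p | T.r s p < ρ} ≤ ENNReal.ofReal (C * ρ ^ 2) := by
  obtain ⟨C, hC0, hC⟩ := T.exists_mu_d_lt
  refine ⟨28 * C, by positivity, fun s hs hs1 ρ hρ => ?_⟩
  set n : ℕ := ⌈1 / s ^ 2⌉₊ + 1 with hn
  have hn1 : 1 / s ^ 2 + 1 ≤ n := by rw [hn]; push_cast; linarith [Nat.le_ceil (1 / s ^ 2)]
  have hs2 : 1 ≤ 1 / s ^ 2 := by rw [le_div_iff₀ (by positivity)]; nlinarith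
  have hn2 : (n : ℝ) ≤ 3 / s ^ 2 := by
    rw [hn]; push_cast
    have := Nat.ceil_lt_add_one (by positivity : 0 ≤ 1 / s ^ 2)
    have e : 3 / s ^ 2 = 3 * (1 / s ^ 2) := by ring
    linarith
  have hm : MeasurableSet {p | T.d p < 2 * ρ * s} :=
    measurableSet_lt T.continuous_d.measurable measurable_const
  calc T.mu {p | T.r s p < ρ}
      ≤ T.mu (⋃ j ∈ Finset.Icc (-(n : ℤ)) n, T.phi (j * (ρ * s)) ⁻¹' {p | T.d p < 2 * ρ * s}) := by
        refine measure_mono fun p hp => ?_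
        obtain ⟨q, hq⟩ := exists_lt_of_ciInf_lt (show T.r s p < ρ from hp)
        have hd := T.d_nonneg (T.phi q p)
        have hρs : 0 < ρ * s := by positivity
        have q1 : s * |(q : ℝ)| < ρ := by
          have : 0 ≤ T.d (T.phi q p) / s := by positivity
          linarith
        have q2 : T.d (T.phi q p) < ρ * s := by
          rw [← div_lt_iff₀ hs]
          have : 0 ≤ s * |(q : ℝ)| := by positivity
          linarith
        have q3 : |(q : ℝ) / (ρ * s)| < 1 / s ^ 2 := by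
          rw [abs_div, abs_of_pos hρs, div_lt_div_iff₀ hρs (by positivity)]
          nlinarith
        obtain ⟨q4, q5⟩ := abs_lt.1 q3
        have f1 := Int.floor_le ((q : ℝ) / (ρ * s))
        have f2 := Int.lt_floor_add_one ((q : ℝ) / (ρ * s))
        refine mem_iUnion₂.2 ⟨⌊(q : ℝ) / (ρ * s)⌋, ?_, ?_⟩
        · rw [Finset.mem_Icc]
          constructor
          · rw [Int.le_floor]; push_cast; linarith
          · have : ((⌊(q : ℝ) / (ρ * s)⌋ : ℤ) : ℝ) ≤ ((n : ℤ) : ℝ) := by push_cast; linarith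
            exact_mod_cast this
        · show T.d (T.phi _ p) < _
          have h1 := T.abs_d_phi_sub (⌊(q : ℝ) / (ρ * s)⌋ * (ρ * s)) q p
          rw [le_div_iff₀ hρs] at f1
          rw [div_lt_iff₀ hρs] at f2
          rw [abs_sub_comm (_ * _), abs_of_nonneg (sub_nonneg.2 f1)] at h1
          have := (abs_le.1 h1).2
          linarith
    _ ≤ ∑ j ∈ Finset.Icc (-(n : ℤ)) n,
          T.mu (T.phi (j * (ρ * s)) ⁻¹' {p | T.d p < 2 * ρ * s}) := measure_biUnion_finset_le _ _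
    _ ≤ ∑ _j ∈ Finset.Icc (-(n : ℤ)) n, ENNReal.ofReal (C * (2 * ρ * s) ^ 2) :=
        Finset.sum_le_sum fun j _ => (T.mu_phi_le _ hm).trans (hC _ (by positivity))
    _ ≤ _ := by
        rw [Finset.sum_const, Int.card_Icc, nsmul_eq_mul, ← ENNReal.ofReal_natCast,
          ← ENNReal.ofReal_mul (by positivity)]
        apply ENNReal.ofReal_le_ofReal
        have e : (((n : ℤ) + 1 - -(n : ℤ)).toNat : ℝ) = 2 * n + 1 := by
          have : ((n : ℤ) + 1 - -(n : ℤ)).toNat = 2 * n + 1 := by omega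
          rw [this]; push_cast; ring
        rw [e]
        have e2 : 2 * (n : ℝ) + 1 ≤ 7 / s ^ 2 := by
          have e3 : 7 / s ^ 2 = 2 * (3 / s ^ 2) + 1 / s ^ 2 := by ring
          linarith
        refine (mul_le_mul_of_nonneg_right e2 (by positivity)).trans (le_of_eq ?_)
        field_simp; ring

/-- the local translation law for the directional flows -/
lemma ae_loc {θ₁ θ₂ θ₃ t₁ t₂ t₃ : ℝ} (h : (t₁ : ℂ) * ex θ₁ + t₂ * ex θ₂ = t₃ * ex θ₃) :
    ∀ᵐ p ∂T.mu, 2 / T.κ * (|t₁| + |t₂|) < T.d p →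
      T.fl θ₁ t₁ (T.fl θ₂ t₂ p) = T.fl θ₃ t₃ p := by
  filter_upwards [T.ae_good, T.ae_rot_good θ₂, T.ae_rot_good θ₃,
    (T.mp_fl θ₂ t₂).quasiMeasurePreserving.ae (T.ae_rot_good θ₁)] with p h0 h2 h3 h1 hd
  have hκ := T.κ_pos
  have hn : ∀ t θ : ℝ, ‖(t : ℂ) * ex θ‖ = |t| := fun t θ => by simp [norm_ex]
  rw [div_mul_eq_mul_div, div_lt_iff₀ hκ, mul_comm (T.d p)] at hd
  have a1 := abs_nonneg t₁
  have a2 := abs_nonneg t₂
  have a3 : |t₃| ≤ |t₁| + |t₂| := by
    rw [← hn t₃ θ₃, ← h, ← hn t₁ θ₁, ← hn t₂ θ₂]; exact norm_add_le _ _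
  have e2 := T.fl_eq_step h2 (t := t₂) (by linarith)
  have hM := T.good_subset h0
  have a4 := T.d_step hM (a := t₂ * ex θ₂) (by rw [hn]; linarith)
  rw [hn, ← e2] at a4
  rw [T.fl_eq_step h1 (t := t₁) (by nlinarith [T.κ_le]), e2,
    T.step_step hM (by rw [hn, hn]; linarith), h, T.fl_eq_step h3 (by linarith)]

end Tri

end Crest.Agent.R103D
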