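import Crest.Prelude.Def_Billiard

/-!
# Row 103: the frame-bundle model of the triangular billiard (definitions)

A state is `((x, v), e)`: a point `x` of the plane, a unit vector `v` and an orientation bit `e`.
The pair `(v, e)` is an orthonormal frame `g` with `g 1 = v`, `g I = ± J v`; `fr p a = g a` for a
complex number `a`.  `shift a` translates the base point by `g a`, `refl i` reflects a state in the
line of side `i`, `fold` folds a state near the triangle back into it, `step a = fold ∘ shift a`.
-/

set_option autoImplicit false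
open MeasureTheory Filter Topology
open scoped RealInnerProductSpace
open Crest.AnalysisR.Billiard

namespace Crest.Agent.R103D

/-- the unit circle of the plane -/
abbrev Sph : Type := ↥(Metric.sphere (0 : Plane) 1)

/-- states: position, unit velocity, orientation bit -/
abbrev St : Type := Phase × Bool

/-- quarter turn -/
def J (v : Plane) : Plane := !₂[-(v 1), v 0]

/-- sign of an orientation bit -/
def sg (e : Bool) : ℝ := if e then 1 else -1

/-- the frame `(v, e)` applied to the complex number `a` -/
noncomputable def frv (v : Plane) (e : Bool) (a : ℂ) : Plane := a.re • v + (sg e * a.im) • J v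

/-- the frame of a state applied to the complex number `a` -/
noncomputable def fr (p : St) (a : ℂ) : Plane := frv (p.1.2 : Plane) p.2 a

/-- the unit complex number of argument `θ` -/
noncomputable def ex (θ : ℝ) : ℂ := Complex.exp (θ * Complex.I)

@[simp] lemma J_0 (v : Plane) : J v 0 = -(v 1) := rfl
@[simp] lemma J_1 (v : Plane) : J v 1 = v 0 := rfl
@[simp] lemma sg_true : sg true = 1 := rfl
@[simp] lemma sg_false : sg false = -1 := rfl
lemma sg_not (e : Bool) : sg (!e) = -sg e := by cases e <;> simp
lemma sg_sq (e : Bool) : sg e * sg e = 1 := by cases e <;> simp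

lemma plane_ext {u v : Plane} (h0 : u 0 = v 0) (h1 : u 1 = v 1) : u = v := by
  ext i; fin_cases i
  · exact h0
  · exact h1

lemma normsq_plane (v : Plane) : ‖v‖ ^ 2 = v 0 ^ 2 + v 1 ^ 2 := by
  rw [EuclideanSpace.real_norm_sq_eq, Fin.sum_univ_two]

lemma inner_plane (u v : Plane) : ⟪u, v⟫ = u 0 * v 0 + u 1 * v 1 := by
  simp [PiLp.inner_apply, Fin.sum_univ_two]; ring

@[simp] lemma frv_0 (v : Plane) (e : Bool) (a : ℂ) :
    frv v e a 0 = a.re * v 0 - sg e * a.im * v 1 := by
  simp [frv]; ring

@[simp] lemma frv_1 (v : Plane) (e : Bool) (a : ℂ) :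
    frv v e a 1 = a.re * v 1 + sg e * a.im * v 0 := by
  simp [frv]

lemma norm_frv (v : Plane) (e : Bool) (a : ℂ) : ‖frv v e a‖ = ‖a‖ * ‖v‖ := by
  have h : ‖frv v e a‖ ^ 2 = (‖a‖ * ‖v‖) ^ 2 := by
    rw [mul_pow, normsq_plane, normsq_plane, Complex.sq_norm, Complex.normSq_apply, frv_0, frv_1]
    have := sg_sq e
    linear_combination (a.im ^ 2 * (v 0 ^ 2 + v 1 ^ 2)) * this
  exact (pow_left_inj₀ (norm_nonneg _) (by positivity) two_ne_zero).1 h

lemma norm_sph (v : Sph) : ‖(v : Plane)‖ = 1 := by simp

lemma norm_ex (θ : ℝ) : ‖ex θ‖ = 1 := by simp [ex, Complex.norm_exp_ofReal_mul_I]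

lemma norm_fr (p : St) (a : ℂ) : ‖fr p a‖ = ‖a‖ := by
  rw [fr, norm_frv, norm_sph, mul_one]

/-- rotation of the frame by the angle `θ` (right action of `SO(2)`) -/
noncomputable def rot (θ : ℝ) (p : St) : St :=
  ((p.1.1, ⟨fr p (ex θ), by simp [norm_fr, norm_ex]⟩), p.2)

/-- translation of the base point by the frame vector `g a` -/
noncomputable def shift (a : ℂ) (p : St) : St := ((p.1.1 + fr p a, p.1.2), p.2)

/-- A non-degenerate triangle with unit inward normals and a separation constant `κ`. -/
structure Tri where
  /-- vertices -/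
  A : Fin 3 → Plane
  /-- unit inward normals of the sides -/
  n : Fin 3 → Plane
  /-- separation constant -/
  κ : ℝ
  indep : AffineIndependent ℝ A
  norm_n : ∀ i, ‖n i‖ = 1
  orth : ∀ i, ⟪n i, sideVec A i⟫ = 0
  pos : ∀ i, 0 < ⟪n i, A i - A (i + 1)⟫
  κ_pos : 0 < κ
  κ_le : κ ≤ 1
  /-- a point of the closed triangle is close to at most one side, relative to its distance
  from the vertices -/
  sep : ∀ x : Plane, (∀ i, 0 ≤ ⟪n i, x - A (i + 1)⟫) →
    ∃ i, ∀ j, j ≠ i → κ * Metric.infDist x (Set.range A) ≤ ⟪n j, x - A (j + 1)⟫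

namespace Tri

variable (T : Tri)

/-- signed distance from the line of side `i` (positive inside) -/
noncomputable def h (i : Fin 3) (x : Plane) : ℝ := ⟪T.n i, x - T.A (i + 1)⟫

/-- linear reflection in the direction of side `i` -/
noncomputable def L (i : Fin 3) (v : Plane) : Plane := v - (2 * ⟪T.n i, v⟫) • T.n i

/-- affine reflection in the line of side `i` -/
noncomputable def σ (i : Fin 3) (x : Plane) : Plane := x - (2 * T.h i x) • T.n i

lemma norm_L (i : Fin 3) (v : Plane) : ‖T.L i v‖ = ‖v‖ := by
  have h : ‖T.L i v‖ ^ 2 = ‖v‖ ^ 2 := by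
    rw [L, norm_sub_sq_real, real_inner_smul_right, norm_smul, T.norm_n, real_inner_comm,
      Real.norm_eq_abs, mul_one, sq_abs]
    ring
  exact (pow_left_inj₀ (norm_nonneg _) (norm_nonneg _) two_ne_zero).1 h

/-- reflection of a state in the line of side `i` -/
noncomputable def refl (i : Fin 3) (p : St) : St :=
  ((T.σ i p.1.1, ⟨T.L i p.1.2, by simp [norm_L]⟩), !p.2)

/-- the state lies on the wrong side of side `i` (on the line itself the representative with
orientation bit `true` is the canonical one) -/
def Bad (i : Fin 3) (p : St) : Prop := T.h i p.1.1 < 0 ∨ (T.h i p.1.1 = 0 ∧ p.2 = false)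

open Classical in
/-- fold a state back into the triangle (meaningful when only one side has been crossed) -/
noncomputable def fold (p : St) : St :=
  if T.Bad 0 p then T.refl 0 p else if T.Bad 1 p then T.refl 1 p else
    if T.Bad 2 p then T.refl 2 p else p

/-- the local translation action -/
noncomputable def step (a : ℂ) (p : St) : St := T.fold (shift a p)

/-- canonical states over the closed triangle -/
def M0 : Set St := {p | ∀ i, ¬ T.Bad i p}

/-- states over the open triangle -/
def Int : Set St := {p | ∀ i, 0 < T.h i p.1.1}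

/-- distance of the base point from the vertices -/
noncomputable def d (p : St) : ℝ := Metric.infDist p.1.1 (Set.range T.A)

/-- the invariant measure on states -/
noncomputable def mu : Measure St := (phaseMeasure T.A).prod Measure.count

/-- `γ` is locally a billiard orbit at time `t` -/
def LocOrb (γ : ℝ → St) (t : ℝ) : Prop :=
  γ t ∈ T.M0 ∧ 0 < T.d (γ t) ∧ ∀ᶠ τ : ℝ in 𝓝 0, γ (t + τ) = T.step (τ : ℂ) (γ t)

/-- states with a complete orbit -/
def Good : Set St := {p | ∃ γ : ℝ → St, γ 0 = p ∧ ∀ t, T.LocOrb γ t}

open Classical in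
/-- the billiard flow on states (the identity off `Good`) -/
noncomputable def phi (t : ℝ) (p : St) : St := if h : p ∈ T.Good then h.choose t else p

/-- the flow in the direction `θ` of the frame -/
noncomputable def fl (θ t : ℝ) (p : St) : St := rot (-θ) (T.phi t (rot θ p))

/-- anisotropic distance from the vertices -/
noncomputable def r (s : ℝ) (p : St) : ℝ :=
  ⨅ q : ℚ, (s * |(q : ℝ)| + T.d (T.phi q p) / s)

end Tri

end Crest.Agent.R103D
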