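import Crest.Agent.R103D.Defs

/-!
# Row 103: algebra of shifts, rotations, reflections and the local translation law
-/

set_option autoImplicit false
open MeasureTheory Filter Topology
open scoped RealInnerProductSpace
open Crest.AnalysisR.Billiard

namespace Crest.Agent.R103D

lemma st_ext {p q : St} (h1 : p.1.1 = q.1.1) (h2 : (p.1.2 : Plane) = q.1.2) (h3 : p.2 = q.2) :
    p = q := Prod.ext (Prod.ext h1 (Subtype.ext h2)) h3

lemma frv_add (v : Plane) (e : Bool) (a b : ℂ) : frv v e (a + b) = frv v e a + frv v e b := by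
  apply plane_ext <;> simp <;> ring

lemma frv_ofReal (v : Plane) (e : Bool) (t : ℝ) : frv v e t = t • v := by
  apply plane_ext <;> simp

lemma frv_frv (v : Plane) (e : Bool) (a b : ℂ) : frv (frv v e a) e b = frv v e (a * b) := by
  have := sg_sq e
  apply plane_ext
  · simp; linear_combination (-(b.im * a.im * v 0)) * this
  · simp; linear_combination (-(b.im * a.im * v 1)) * this

lemma frv_real_mul (v : Plane) (e : Bool) (t : ℝ) (a : ℂ) :
    frv v e (t * a) = t • frv v e a := by
  apply plane_ext <;> simp <;> ring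

lemma fr_add (p : St) (a b : ℂ) : fr p (a + b) = fr p a + fr p b := frv_add _ _ _ _
lemma fr_ofReal (p : St) (t : ℝ) : fr p t = t • (p.1.2 : Plane) := frv_ofReal _ _ _
lemma fr_zero (p : St) : fr p 0 = 0 := by simpa using fr_ofReal p 0
lemma fr_one (p : St) : fr p 1 = p.1.2 := by simpa using fr_ofReal p 1
lemma fr_real_mul (p : St) (t : ℝ) (a : ℂ) : fr p (t * a) = t • fr p a := frv_real_mul _ _ _ _

lemma ex_add (a b : ℝ) : ex (a + b) = ex a * ex b := by
  simp [ex, add_mul, Complex.exp_add]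
lemma ex_zero : ex 0 = 1 := by simp [ex]
lemma ex_two_pi : ex (2 * Real.pi) = 1 := by simp [ex]
lemma ex_neg_mul (a : ℝ) : ex (-a) * ex a = 1 := by rw [← ex_add]; simp [ex_zero]
lemma ex_mul_neg (a : ℝ) : ex a * ex (-a) = 1 := by rw [← ex_add]; simp [ex_zero]
lemma continuous_ex : Continuous ex := by unfold ex; fun_prop

@[simp] lemma shift_pos (a : ℂ) (p : St) : (shift a p).1.1 = p.1.1 + fr p a := rfl
@[simp] lemma shift_vel (a : ℂ) (p : St) : (shift a p).1.2 = p.1.2 := rfl
@[simp] lemma shift_bit (a : ℂ) (p : St) : (shift a p).2 = p.2 := rfl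
@[simp] lemma rot_pos (θ : ℝ) (p : St) : (rot θ p).1.1 = p.1.1 := rfl
@[simp] lemma rot_vel (θ : ℝ) (p : St) : ((rot θ p).1.2 : Plane) = fr p (ex θ) := rfl
@[simp] lemma rot_bit (θ : ℝ) (p : St) : (rot θ p).2 = p.2 := rfl
@[simp] lemma fr_shift (a b : ℂ) (p : St) : fr (shift a p) b = fr p b := rfl

lemma fr_rot (θ : ℝ) (p : St) (a : ℂ) : fr (rot θ p) a = fr p (ex θ * a) := frv_frv _ _ _ _

lemma shift_zero (p : St) : shift 0 p = p := by
  apply st_ext <;> simp [fr_zero]

lemma shift_shift (a b : ℂ) (p : St) : shift a (shift b p) = shift (a + b) p := by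
  apply st_ext <;> simp [fr_add]; abel

lemma rot_zero (p : St) : rot 0 p = p := by
  apply st_ext <;> simp [ex_zero, fr_one]

lemma rot_two_pi (p : St) : rot (2 * Real.pi) p = p := by
  apply st_ext <;> simp [ex_two_pi, fr_one]

lemma rot_add (a b : ℝ) (p : St) : rot (a + b) p = rot a (rot b p) := by
  apply st_ext <;> simp [fr_rot, ex_add, mul_comm]

lemma rot_neg_rot (a : ℝ) (p : St) : rot (-a) (rot a p) = p := by
  rw [← rot_add]; simp [rot_zero]

lemma rot_rot_neg (a : ℝ) (p : St) : rot a (rot (-a) p) = p := by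
  rw [← rot_add]; simp [rot_zero]

lemma shift_rot (a : ℂ) (θ : ℝ) (p : St) : shift a (rot θ p) = rot θ (shift (ex θ * a) p) := by
  apply st_ext <;> simp [fr_rot]

lemma continuous_J : Continuous J := by
  unfold J; fun_prop

lemma continuous_sg : Continuous sg := continuous_of_discreteTopology

lemma continuous_fr : Continuous fun z : ℂ × St => fr z.2 z.1 := by
  unfold fr frv
  have := continuous_J
  have := continuous_sg
  fun_prop

lemma continuous_shift : Continuous fun z : ℂ × St => shift z.1 z.2 := by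
  unfold shift
  have := continuous_fr
  fun_prop

lemma continuous_rot : Continuous fun z : ℝ × St => rot z.1 z.2 := by
  unfold rot
  refine Continuous.prodMk (Continuous.prodMk (by fun_prop) (Continuous.subtype_mk ?_ _))
    (by fun_prop)
  exact continuous_fr.comp ((continuous_ex.comp continuous_fst).prodMk continuous_snd)

lemma measurable_shift (a : ℂ) : Measurable (shift a) :=
  (continuous_shift.comp (continuous_const.prodMk continuous_id)).measurable

lemma measurable_rot (θ : ℝ) : Measurable (rot θ) :=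
  (continuous_rot.comp (continuous_const.prodMk continuous_id)).measurable

namespace Tri

variable (T : Tri)

lemma inner_n_n (i : Fin 3) : ⟪T.n i, T.n i⟫ = 1 := by
  rw [real_inner_self_eq_norm_sq, T.norm_n]; norm_num

lemma n_sq (i : Fin 3) : T.n i 0 ^ 2 + T.n i 1 ^ 2 = 1 := by
  rw [← normsq_plane, T.norm_n]; norm_num

lemma h_add (i : Fin 3) (x v : Plane) : T.h i (x + v) = T.h i x + ⟪T.n i, v⟫ := by
  rw [h, h, ← inner_add_right]; congr 1; abel

lemma h_sub (i : Fin 3) (x y : Plane) : T.h i x - T.h i y = ⟪T.n i, x - y⟫ := by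
  rw [h, h, ← inner_sub_right]; congr 1; abel

lemma abs_h_sub (i : Fin 3) (x y : Plane) : |T.h i x - T.h i y| ≤ dist x y := by
  rw [h_sub, dist_eq_norm]
  simpa [T.norm_n] using abs_real_inner_le_norm (T.n i) (x - y)

lemma continuous_h (i : Fin 3) : Continuous (T.h i) := by unfold h; fun_prop

lemma inner_L (i : Fin 3) (v : Plane) : ⟪T.n i, T.L i v⟫ = -⟪T.n i, v⟫ := by
  rw [L, inner_sub_right, real_inner_smul_right, inner_n_n]; ring

lemma L_L (i : Fin 3) (v : Plane) : T.L i (T.L i v) = v := by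
  conv_lhs => rw [L, inner_L, L]
  module

lemma h_σ (i : Fin 3) (x : Plane) : T.h i (T.σ i x) = -T.h i x := by
  rw [σ, sub_eq_add_neg, h_add, inner_neg_right, real_inner_smul_right, inner_n_n]; ring

lemma σ_σ (i : Fin 3) (x : Plane) : T.σ i (T.σ i x) = x := by
  conv_lhs => rw [σ, h_σ, σ]
  module

lemma σ_add (i : Fin 3) (x v : Plane) : T.σ i (x + v) = T.σ i x + T.L i v := by
  rw [σ, h_add, σ, L]; module

lemma σ_of_zero (i : Fin 3) {x : Plane} (hx : T.h i x = 0) : T.σ i x = x := by simp [σ, hx]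

lemma L_frv (i : Fin 3) (v : Plane) (e : Bool) (a : ℂ) :
    frv (T.L i v) (!e) a = T.L i (frv v e a) := by
  have hn := T.n_sq i
  apply plane_ext
  · simp [L, inner_plane, sg_not]
    linear_combination (-2 * sg e * a.im * v 1) * hn
  · simp [L, inner_plane, sg_not]
    linear_combination (2 * sg e * a.im * v 0) * hn

lemma dist_σ_le (i : Fin 3) {x y : Plane} (hx : 0 ≤ T.h i x) (hy : T.h i y ≤ 0) :
    dist (T.σ i y) x ≤ dist y x := by
  rw [dist_eq_norm, dist_eq_norm]
  apply le_of_sq_le_sq _ (norm_nonneg _) |>.trans le_rfl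
  have e : T.σ i y - x = (y - x) - (2 * T.h i y) • T.n i := by rw [σ]; abel
  rw [e, norm_sub_sq_real, real_inner_smul_right, norm_smul, T.norm_n, real_inner_comm,
    ← h_sub, Real.norm_eq_abs, mul_one, sq_abs]
  nlinarith [mul_nonneg hx (neg_nonneg.2 hy)]

@[simp] lemma refl_pos (i : Fin 3) (p : St) : (T.refl i p).1.1 = T.σ i p.1.1 := rfl
@[simp] lemma refl_vel (i : Fin 3) (p : St) : ((T.refl i p).1.2 : Plane) = T.L i p.1.2 := rfl
@[simp] lemma refl_bit (i : Fin 3) (p : St) : (T.refl i p).2 = !p.2 := rfl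

lemma fr_refl (i : Fin 3) (p : St) (a : ℂ) : fr (T.refl i p) a = T.L i (fr p a) :=
  T.L_frv _ _ _ _

lemma refl_refl (i : Fin 3) (p : St) : T.refl i (T.refl i p) = p := by
  apply st_ext <;> simp [σ_σ, L_L]

lemma shift_refl (i : Fin 3) (a : ℂ) (p : St) :
    shift a (T.refl i p) = T.refl i (shift a p) := by
  apply st_ext <;> simp [σ_add, fr_refl]

lemma rot_refl (i : Fin 3) (θ : ℝ) (p : St) : rot θ (T.refl i p) = T.refl i (rot θ p) := by
  apply st_ext <;> simp [fr_refl]

lemma bad_refl (i : Fin 3) (p : St) : T.Bad i (T.refl i p) ↔ ¬ T.Bad i p := by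
  simp only [Bad, refl_pos, h_σ, refl_bit]
  rcases lt_trichotomy (T.h i p.1.1) 0 with h | h | h
  · simp [h, h.ne, h.le]
  · cases p.2 <;> simp [h]
  · simp [h, h.ne', h.le]

lemma bad_rot (i : Fin 3) (θ : ℝ) (p : St) : T.Bad i (rot θ p) ↔ T.Bad i p := Iff.rfl

lemma not_bad_of_pos {i : Fin 3} {p : St} (hp : 0 < T.h i p.1.1) : ¬ T.Bad i p := by
  simp [Bad, hp.le, hp.ne']

lemma nonneg_of_not_bad {i : Fin 3} {p : St} (hp : ¬ T.Bad i p) : 0 ≤ T.h i p.1.1 := by
  simp only [Bad, not_or, not_lt] at hp; exact hp.1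

lemma nonpos_of_bad {i : Fin 3} {p : St} (hp : T.Bad i p) : T.h i p.1.1 ≤ 0 := by
  rcases hp with h | h
  · exact h.le
  · exact h.1.le

lemma int_subset : T.Int ⊆ T.M0 := fun _ hp i => T.not_bad_of_pos (hp i)

lemma fold_rot (θ : ℝ) (p : St) : T.fold (rot θ p) = rot θ (T.fold p) := by
  unfold fold
  by_cases h0 : T.Bad 0 p
  · rw [if_pos h0, if_pos ((T.bad_rot 0 θ p).2 h0), rot_refl]
  rw [if_neg h0, if_neg (mt (T.bad_rot 0 θ p).1 h0)]
  by_cases h1 : T.Bad 1 p
  · rw [if_pos h1, if_pos ((T.bad_rot 1 θ p).2 h1), rot_refl]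
  rw [if_neg h1, if_neg (mt (T.bad_rot 1 θ p).1 h1)]
  by_cases h2 : T.Bad 2 p
  · rw [if_pos h2, if_pos ((T.bad_rot 2 θ p).2 h2), rot_refl]
  rw [if_neg h2, if_neg (mt (T.bad_rot 2 θ p).1 h2)]

lemma step_rot (a : ℂ) (θ : ℝ) (p : St) :
    T.step a (rot θ p) = rot θ (T.step (ex θ * a) p) := by
  rw [step, step, shift_rot, fold_rot]

lemma fold_of_mem {p : St} (hp : p ∈ T.M0) : T.fold p = p := by
  simp only [fold, hp 0, hp 1, hp 2, if_false]

lemma rot_mem_M0 (θ : ℝ) {p : St} : rot θ p ∈ T.M0 ↔ p ∈ T.M0 := Iff.rfl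
lemma rot_mem_Int (θ : ℝ) {p : St} : rot θ p ∈ T.Int ↔ p ∈ T.Int := Iff.rfl
lemma d_rot (θ : ℝ) (p : St) : T.d (rot θ p) = T.d p := rfl

open Classical in
lemma fold_eq {i : Fin 3} {p : St} (hp : ∀ j, j ≠ i → 0 < T.h j p.1.1) :
    T.fold p = if T.Bad i p then T.refl i p else p := by
  have h' : ∀ j, j ≠ i → ¬ T.Bad j p := fun j hj => T.not_bad_of_pos (hp j hj)
  fin_cases i
  · have h1 := h' 1 (by decide)
    have h2 := h' 2 (by decide)
    simp [fold, h1, h2]
  · have h1 := h' 0 (by decide)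
    have h2 := h' 2 (by decide)
    simp [fold, h1, h2]
  · have h1 := h' 0 (by decide)
    have h2 := h' 1 (by decide)
    simp [fold, h1, h2]

lemma fold_refl {i : Fin 3} {p : St} (hp : ∀ j, j ≠ i → 0 < T.h j p.1.1)
    (hq : ∀ j, j ≠ i → 0 < T.h j (T.σ i p.1.1)) : T.fold (T.refl i p) = T.fold p := by
  rw [T.fold_eq hp, T.fold_eq (i := i) (p := T.refl i p) hq, bad_refl, refl_refl]
  split_ifs <;> rfl

lemma step_zero {p : St} (hp : p ∈ T.M0) : T.step 0 p = p := by
  rw [step, shift_zero, T.fold_of_mem hp]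

/-- the near side of a state: all points within `κ d` of the base point are strictly inside the
two other sides -/
lemma exists_near {p : St} (hp : p ∈ T.M0) :
    ∃ i, ∀ y : Plane, dist y p.1.1 < T.κ * T.d p → ∀ j, j ≠ i → 0 < T.h j y := by
  obtain ⟨i, hi⟩ := T.sep p.1.1 (fun i => T.nonneg_of_not_bad (hp i))
  refine ⟨i, fun y hy j hj => ?_⟩
  have h1 : T.κ * T.d p ≤ T.h j p.1.1 := hi j hj
  have h2 := T.abs_h_sub j y p.1.1
  have := (abs_le.1 h2).1
  linarith

lemma dist_shift (a : ℂ) (p : St) : dist (shift a p).1.1 p.1.1 = ‖a‖ := by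
  simp [norm_fr]

/-- description of a short step in terms of the near side -/
lemma step_spec {p : St} (_hp : p ∈ T.M0) {i : Fin 3}
    (hi : ∀ y : Plane, dist y p.1.1 < T.κ * T.d p → ∀ j, j ≠ i → 0 < T.h j y)
    {a : ℂ} (ha : ‖a‖ < T.κ * T.d p) :
    (¬ T.Bad i (shift a p) ∧ T.step a p = shift a p) ∨
      (T.Bad i (shift a p) ∧ T.step a p = T.refl i (shift a p)) := by
  have h1 := hi (shift a p).1.1 (by rwa [dist_shift])
  rw [step, T.fold_eq h1]
  by_cases hb : T.Bad i (shift a p) <;> simp [hb]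

lemma dist_step {p : St} (hp : p ∈ T.M0) {a : ℂ} (ha : ‖a‖ < T.κ * T.d p) :
    dist (T.step a p).1.1 p.1.1 ≤ ‖a‖ := by
  obtain ⟨i, hi⟩ := T.exists_near hp
  rcases T.step_spec hp hi ha with ⟨_, h⟩ | ⟨hb, h⟩
  · rw [h, dist_shift]
  · rw [h, refl_pos, ← dist_shift a p]
    exact T.dist_σ_le i (T.nonneg_of_not_bad (hp i)) (T.nonpos_of_bad hb)

lemma step_mem {p : St} (hp : p ∈ T.M0) {a : ℂ} (ha : ‖a‖ < T.κ * T.d p) :
    T.step a p ∈ T.M0 := by
  obtain ⟨i, hi⟩ := T.exists_near hp
  intro j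
  by_cases hj : j = i
  · subst hj
    rcases T.step_spec hp hi ha with ⟨hb, h⟩ | ⟨hb, h⟩
    · rwa [h]
    · rw [h, bad_refl]; exact not_not.2 hb
  · exact T.not_bad_of_pos (hi _ ((T.dist_step hp ha).trans_lt ha) j hj)

/-- the local translation law -/
lemma step_step {p : St} (hp : p ∈ T.M0) {a b : ℂ} (hab : ‖a‖ + ‖b‖ < T.κ * T.d p) :
    T.step a (T.step b p) = T.step (a + b) p := by
  obtain ⟨i, hi⟩ := T.exists_near hp
  have hb : ‖b‖ < T.κ * T.d p := by linarith [norm_nonneg a]
  have hd := T.dist_step hp hb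
  rcases T.step_spec hp hi hb with ⟨_, h⟩ | ⟨_, h⟩
  · rw [h, step, shift_shift, step]
  · have e : shift a (T.step b p) = T.refl i (shift (a + b) p) := by
      rw [h, shift_refl, shift_shift]
    rw [step, e, T.fold_refl, step]
    · apply hi
      rw [dist_shift]; exact (norm_add_le a b).trans_lt hab
    · apply hi
      rw [← refl_pos, ← e]
      calc _ ≤ dist (shift a (T.step b p)).1.1 (T.step b p).1.1 + dist (T.step b p).1.1 p.1.1 :=
            dist_triangle _ _ _
        _ ≤ ‖a‖ + ‖b‖ := by rw [dist_shift]; linarith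
        _ < _ := hab

lemma d_nonneg (p : St) : 0 ≤ T.d p := Metric.infDist_nonneg

lemma abs_d_sub (p q : St) : |T.d p - T.d q| ≤ dist p.1.1 q.1.1 := by
  have h1 : T.d p ≤ T.d q + dist p.1.1 q.1.1 := Metric.infDist_le_infDist_add_dist
  have h2 : T.d q ≤ T.d p + dist q.1.1 p.1.1 := Metric.infDist_le_infDist_add_dist
  rw [dist_comm] at h2
  rw [abs_le]; constructor <;> linarith

lemma d_step {p : St} (hp : p ∈ T.M0) {a : ℂ} (ha : ‖a‖ < T.κ * T.d p) :
    T.d p - ‖a‖ ≤ T.d (T.step a p) := by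
  have h1 := T.abs_d_sub (T.step a p) p
  have h2 := T.dist_step hp ha
  have := (abs_le.1 h1).1
  linarith

lemma κ_d_le (p : St) : T.κ * T.d p ≤ T.d p := by
  nlinarith [T.κ_le, T.d_nonneg p]

lemma d_step_pos {p : St} (hp : p ∈ T.M0) {a : ℂ} (ha : ‖a‖ < T.κ * T.d p) :
    0 < T.d (T.step a p) := by
  linarith [T.d_step hp ha, T.κ_d_le p]

lemma step_neg_step {p : St} (hp : p ∈ T.M0) {a : ℂ} (ha : 2 * ‖a‖ < T.κ * T.d p) :
    T.step (-a) (T.step a p) = p := by
  rw [T.step_step hp (by rw [norm_neg]; linarith), neg_add_cancel, T.step_zero hp]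

lemma h_vertex {i j : Fin 3} (hij : j ≠ i) : T.h i (T.A j) = 0 := by
  have h2 := T.orth i
  have : j = i + 1 ∨ j = i + 2 := by revert hij; fin_cases i <;> fin_cases j <;> decide
  rcases this with rfl | rfl
  · simp [h]
  · exact h2

lemma h_self_pos (i : Fin 3) : 0 < T.h i (T.A i) := T.pos i

lemma d_pos_iff (p : St) : 0 < T.d p ↔ ∀ j, p.1.1 ≠ T.A j := by
  have hc : IsClosed (Set.range T.A) := (Set.finite_range _).isClosed
  rw [d, ← hc.notMem_iff_infDist_pos (Set.range_nonempty _)]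
  simp [eq_comm]

lemma d_pos_of_int {p : St} (hp : p ∈ T.Int) : 0 < T.d p := by
  rw [d_pos_iff]
  intro j hj
  have := hp (j + 1)
  rw [hj, T.h_vertex (by fin_cases j <;> decide)] at this
  exact lt_irrefl _ this

lemma continuous_d : Continuous T.d :=
  (Metric.continuous_infDist_pt _).comp (by fun_prop)

lemma continuous_σ (i : Fin 3) : Continuous (T.σ i) := by
  unfold σ; have := T.continuous_h i; fun_prop

lemma continuous_L (i : Fin 3) : Continuous (T.L i) := by
  unfold L; fun_prop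

lemma continuous_refl (i : Fin 3) : Continuous (T.refl i) := by
  unfold refl
  refine Continuous.prodMk (Continuous.prodMk ((T.continuous_σ i).comp (by fun_prop))
    (Continuous.subtype_mk ((T.continuous_L i).comp (by fun_prop)) _)) ?_
  exact (continuous_of_discreteTopology (f := fun e : Bool => !e)).comp continuous_snd

lemma measurableSet_bad (i : Fin 3) : MeasurableSet {p : St | T.Bad i p} := by
  have hm : Measurable fun p : St => T.h i p.1.1 :=
    ((T.continuous_h i).comp (by fun_prop)).measurable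
  exact (measurableSet_lt hm measurable_const).union
    ((measurableSet_eq_fun hm measurable_const).inter
      (measurableSet_eq_fun measurable_snd measurable_const))

lemma measurable_fold : Measurable T.fold := by
  unfold fold
  exact Measurable.ite (T.measurableSet_bad 0) (T.continuous_refl 0).measurable
    (Measurable.ite (T.measurableSet_bad 1) (T.continuous_refl 1).measurable
      (Measurable.ite (T.measurableSet_bad 2) (T.continuous_refl 2).measurable measurable_id))

lemma measurable_step (a : ℂ) : Measurable (T.step a) :=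
  T.measurable_fold.comp (measurable_shift a)

lemma measurableSet_M0 : MeasurableSet T.M0 := by
  have : T.M0 = ⋂ i, {p : St | T.Bad i p}ᶜ := by ext p; simp [M0]
  rw [this]; exact MeasurableSet.iInter fun i => (T.measurableSet_bad i).compl

lemma isOpen_Int : IsOpen T.Int := by
  have : T.Int = ⋂ i, {p : St | 0 < T.h i p.1.1} := by ext p; simp [Int]
  rw [this]
  exact isOpen_iInter_of_finite fun i =>
    isOpen_lt continuous_const ((T.continuous_h i).comp (by fun_prop))

lemma measurableSet_Int : MeasurableSet T.Int := T.isOpen_Int.measurableSet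

/-- from an interior state short steps are shifts -/
lemma eventually_step_eq_shift {p : St} (hp : p ∈ T.Int) :
    ∀ᶠ τ : ℝ in 𝓝 0, shift (τ : ℂ) p ∈ T.Int ∧ T.step (τ : ℂ) p = shift (τ : ℂ) p := by
  have hc : Continuous fun τ : ℝ => shift (τ : ℂ) p :=
    continuous_shift.comp (Complex.continuous_ofReal.prodMk continuous_const)
  have : ∀ᶠ τ : ℝ in 𝓝 0, shift (τ : ℂ) p ∈ T.Int :=
    hc.continuousAt.eventually_mem (T.isOpen_Int.mem_nhds (by simpa [shift_zero] using hp))
  exact this.mono fun τ hτ => ⟨hτ, T.fold_of_mem (T.int_subset hτ)⟩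

end Tri

end Crest.Agent.R103D
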