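import Crest.Agent.R103D.Geom

/-!
# Row 103: the invariant measure
-/

set_option autoImplicit false
open MeasureTheory Filter Topology Set
open scoped RealInnerProductSpace Pointwise
open Crest.AnalysisR.Billiard

namespace Crest.Agent.R103D

/-- arc length on the unit circle -/
noncomputable abbrev sphM : Measure Sph := (volume : Measure Plane).toSphere

/-- the measure on frames -/
noncomputable abbrev frM : Measure (Sph × Bool) := sphM.prod Measure.count

/-- the unrestricted measure on states -/
noncomputable def nu : Measure St := ((volume : Measure Plane).prod sphM).prod Measure.count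

instance : IsFiniteMeasure sphM := inferInstanceAs (IsFiniteMeasure (volume : Measure Plane).toSphere)
instance : SFinite ((volume : Measure Plane).prod sphM) := Measure.prod.instSFinite
instance : SFinite nu := Measure.prod.instSFinite

lemma count_bool : (Measure.count : Measure Bool) univ = 2 := by
  rw [Measure.count_univ]; simp

lemma mp_sph (φ : Plane →ₗᵢ[ℝ] Plane) {F : Sph → Sph} (hF : ∀ v, (F v : Plane) = φ v) :
    MeasurePreserving F sphM sphM := by
  have hc : Continuous F := by
    rw [Topology.IsInducing.subtypeVal.continuous_iff]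
    have : Subtype.val ∘ F = fun v : Sph => φ v := funext hF
    rw [this]; fun_prop
  refine ⟨hc.measurable, ?_⟩
  ext s hs
  set ψ := φ.toLinearIsometryEquiv rfl with hψ
  have hψφ : ∀ x, ψ x = φ x := fun x => rfl
  rw [Measure.map_apply hc.measurable hs, Measure.toSphere_apply' _ hs,
    Measure.toSphere_apply' _ (hc.measurable hs)]
  congr 1
  have e : Ioo (0 : ℝ) 1 • (Subtype.val '' (F ⁻¹' s)) =
      ψ.toMeasurableEquiv ⁻¹' (Ioo (0 : ℝ) 1 • (Subtype.val '' s)) := by
    ext x
    simp only [Set.mem_smul, mem_image, mem_preimage]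
    constructor
    · rintro ⟨r, hr, _, ⟨v, hv, rfl⟩, rfl⟩
      exact ⟨r, hr, _, ⟨F v, hv, rfl⟩, by
        show _ = ψ (r • (v : Plane)); rw [map_smul, hF, hψφ]⟩
    · rintro ⟨r, hr, _, ⟨w, hw, rfl⟩, hx⟩
      have hx' : r • (w : Plane) = ψ x := hx
      refine ⟨r, hr, _, ⟨⟨ψ.symm w, by simp⟩, ?_, rfl⟩, ?_⟩
      · have : F ⟨ψ.symm w, by simp⟩ = w := Subtype.ext (by rw [hF, ← hψφ]; simp)
        rwa [this]
      · apply ψ.injective
        rw [map_smul, ← hx']; simp
  rw [e]
  exact MeasurePreserving.measure_preimage_equiv (f := ψ.toMeasurableEquiv) ψ.measurePreserving _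

lemma mp_not : MeasurePreserving (fun e : Bool => !e) Measure.count Measure.count := by
  refine ⟨measurable_of_finite _, ?_⟩
  apply Measure.ext_of_singleton
  intro b
  rw [Measure.map_apply (measurable_of_finite _) (measurableSet_singleton _)]
  have : (fun e : Bool => !e) ⁻¹' {b} = {!b} := by ext e; cases e <;> cases b <;> simp
  rw [this]; simp

lemma mp_fr {π : Bool → Bool} (hπ : MeasurePreserving π Measure.count Measure.count)
    {f : Bool → Sph → Sph} (hf : ∀ e, MeasurePreserving (f e) sphM sphM) :
    MeasurePreserving (fun g : Sph × Bool => (f g.2 g.1, π g.2)) frM frM := by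
  have h1 : MeasurePreserving (fun g : Bool × Sph => (π g.1, f g.1 g.2))
      (Measure.count.prod sphM) (Measure.count.prod sphM) :=
    hπ.skew_product (measurable_from_prod_countable_right fun e => (hf e).measurable)
      (ae_of_all _ fun e => (hf e).map_eq)
  exact Measure.measurePreserving_swap.comp (h1.comp Measure.measurePreserving_swap)

/-- reorder a state as (frame, point) -/
def reord : St ≃ᵐ (Sph × Bool) × Plane :=
  MeasurableEquiv.prodAssoc.trans MeasurableEquiv.prodComm

lemma reord_apply (p : St) : reord p = ((p.1.2, p.2), p.1.1) := rfl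
lemma reord_symm_apply (z : (Sph × Bool) × Plane) : reord.symm z = ((z.2, z.1.1), z.1.2) := rfl

lemma mp_reord' (m : Measure Plane) [SFinite m] :
    MeasurePreserving reord ((m.prod sphM).prod Measure.count) (frM.prod m) :=
  Measure.measurePreserving_swap.comp (measurePreserving_prodAssoc _ _ _)

lemma mp_reord : MeasurePreserving reord nu (frM.prod volume) := mp_reord' _

lemma mp_skew (m : Measure Plane) [SFinite m] {f : Sph × Bool → Sph × Bool}
    (hf : MeasurePreserving f frM frM)
    {g : Sph × Bool → Plane → Plane} (hg : Measurable (Function.uncurry g))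
    (hg' : ∀ z, MeasurePreserving (g z) m m) :
    MeasurePreserving (fun p : St => (((g (p.1.2, p.2) p.1.1, (f (p.1.2, p.2)).1),
      (f (p.1.2, p.2)).2) : St)) ((m.prod sphM).prod Measure.count)
      ((m.prod sphM).prod Measure.count) :=
  ((mp_reord' m).symm reord).comp
    ((hf.skew_product hg (ae_of_all _ fun z => (hg' z).map_eq)).comp (mp_reord' m))

lemma mp_shift (a : ℂ) : MeasurePreserving (shift a) nu nu := by
  refine mp_skew volume (f := id) (MeasurePreserving.id _)
    (g := fun z x => x + frv z.1 z.2 a) ?_ fun z => measurePreserving_add_right _ _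
  apply Continuous.measurable
  unfold frv
  have := continuous_J
  have := continuous_sg
  fun_prop

/-- the frame action of a unit complex number as a linear isometry -/
noncomputable def frIso (e : Bool) (θ : ℝ) : Plane →ₗᵢ[ℝ] Plane where
  toFun v := frv v e (ex θ)
  map_add' u v := by apply plane_ext <;> simp <;> ring
  map_smul' c v := by apply plane_ext <;> simp <;> ring
  norm_map' v := by simp [norm_frv, norm_ex]

/-- rotation of a unit vector -/
noncomputable def rotS (e : Bool) (θ : ℝ) (v : Sph) : Sph :=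
  ⟨frv v e (ex θ), by simp [norm_frv, norm_ex]⟩

lemma mp_rotS (e : Bool) (θ : ℝ) : MeasurePreserving (rotS e θ) sphM sphM :=
  mp_sph (frIso e θ) fun _ => rfl

lemma mp_rot' (m : Measure Plane) [SFinite m] (θ : ℝ) :
    MeasurePreserving (rot θ) ((m.prod sphM).prod Measure.count)
      ((m.prod sphM).prod Measure.count) :=
  mp_skew m (mp_fr (MeasurePreserving.id _) fun e => mp_rotS e θ) (g := fun _ x => x)
    measurable_snd fun _ => MeasurePreserving.id _

lemma measure_le_of_pieces {α ι : Type*} [MeasurableSpace α] [Countable ι] (ν : Measure α)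
    (χ : ι → α → α) (hχ : ∀ k, MeasurePreserving (χ k) ν ν) (E : ι → Set α)
    (hE : ∀ k, MeasurableSet (E k)) (hd : Pairwise (Function.onFun Disjoint fun k => χ k ⁻¹' E k))
    {B : Set α} (hB : ∀ k, χ k ⁻¹' E k ⊆ B) : ν (⋃ k, E k) ≤ ν B := by
  calc ν (⋃ k, E k) ≤ ∑' k, ν (E k) := measure_iUnion_le _
    _ = ∑' k, ν (χ k ⁻¹' E k) := by
        congr 1; ext k; rw [(hχ k).measure_preimage (hE k).nullMeasurableSet]
    _ = ν (⋃ k, χ k ⁻¹' E k) := (measure_iUnion hd fun k => (hχ k).measurable (hE k)).symm
    _ ≤ ν B := measure_mono (iUnion_subset hB)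

namespace Tri

variable (T : Tri)

/-- the open triangle -/
def IntP : Set Plane := {x | ∀ i, 0 < T.h i x}

lemma measurableSet_IntP : MeasurableSet T.IntP := T.isOpen_intP.measurableSet

/-- area measure on the triangle -/
noncomputable abbrev area : Measure Plane := volume.restrict T.IntP

lemma volume_IntP_lt_top : volume T.IntP < ⊤ := by
  obtain ⟨D, hD⟩ := T.bounded
  refine (measure_mono fun x hx => ?_).trans_lt
    (Metric.isBounded_closedBall (x := (0 : Plane)) (r := D)).measure_lt_top
  simpa using hD x fun i => (hx i).le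

lemma volume_IntP_pos : 0 < volume T.IntP := T.isOpen_intP.measure_pos _ T.exists_intP

instance : IsFiniteMeasure T.area := ⟨by simpa using T.volume_IntP_lt_top⟩

lemma phaseMeasure_eq : phaseMeasure T.A = T.area.prod sphM := by
  rw [phaseMeasure, interior_eq]; rfl

lemma mu_eq' : T.mu = (T.area.prod sphM).prod Measure.count := by rw [mu, phaseMeasure_eq]

instance : IsFiniteMeasure (phaseMeasure T.A) := by rw [phaseMeasure_eq]; infer_instance
instance : IsFiniteMeasure T.mu := by rw [mu_eq']; infer_instance

lemma mu_eq : T.mu = nu.restrict T.Int := by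
  rw [mu_eq', area, Measure.restrict_prod_eq_prod_univ, Measure.restrict_prod_eq_prod_univ, nu]
  congr 1
  ext p; simp [IntP, Int]

lemma mu_le_nu (s : Set St) : T.mu s ≤ nu s := by
  rw [mu_eq]; exact Measure.restrict_apply_le _ _

lemma ae_int : ∀ᵐ p ∂T.mu, p ∈ T.Int := by
  rw [mu_eq]; exact ae_restrict_mem T.measurableSet_Int

lemma mp_reord_mu : MeasurePreserving reord T.mu (frM.prod T.area) := by
  rw [mu_eq']; exact mp_reord' _

lemma mp_rot (θ : ℝ) : MeasurePreserving (rot θ) T.mu T.mu := by
  rw [mu_eq']; exact mp_rot' _ θ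

/-- the reflection as a linear isometry -/
noncomputable def LIso (i : Fin 3) : Plane →ₗᵢ[ℝ] Plane where
  toFun := T.L i
  map_add' u v := by simp only [L, inner_add_right]; module
  map_smul' c v := by simp only [L, real_inner_smul_right, RingHom.id_apply]; module
  norm_map' := T.norm_L i

/-- reflection of a unit vector -/
noncomputable def LS (i : Fin 3) (v : Sph) : Sph := ⟨T.L i v, by simp [norm_L]⟩

lemma mp_LS (i : Fin 3) : MeasurePreserving (T.LS i) sphM sphM := mp_sph (T.LIso i) fun _ => rfl

lemma mp_LS_fr (i : Fin 3) :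
    MeasurePreserving (fun g : Sph × Bool => (T.LS i g.1, !g.2)) frM frM :=
  mp_fr mp_not (f := fun _ => T.LS i) fun _ => T.mp_LS i

lemma mp_σ (i : Fin 3) : MeasurePreserving (T.σ i) volume volume := by
  have e : T.σ i = (fun x => T.A (i + 1) + x) ∘ ((T.LIso i).toLinearIsometryEquiv rfl) ∘
      fun x => x + -T.A (i + 1) := by
    ext1 x
    have := T.σ_add i (T.A (i + 1)) (x + -T.A (i + 1))
    rw [T.σ_of_zero i (x := T.A (i + 1)) (by simp [h])] at this
    show _ = T.A (i + 1) + T.L i (x + -T.A (i + 1))
    rw [← this]; congr 1; abel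
  rw [e]
  exact (measurePreserving_add_left _ _).comp
    ((LinearIsometryEquiv.measurePreserving _).comp (measurePreserving_add_right _ _))

lemma mp_refl (i : Fin 3) : MeasurePreserving (T.refl i) nu nu :=
  mp_skew volume (T.mp_LS_fr i) (g := fun _ x => T.σ i x)
    ((T.continuous_σ i).measurable.comp measurable_snd) fun _ => T.mp_σ i

lemma volume_line (i : Fin 3) : volume {x : Plane | T.h i x = 0} = 0 := by
  have h1 := Measure.addHaar_submodule (volume : Measure Plane)
    (LinearMap.ker (innerₗ Plane (T.n i))) (by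
      intro h
      have : T.n i ∈ LinearMap.ker (innerₗ Plane (T.n i)) := by rw [h]; trivial
      rw [LinearMap.mem_ker, innerₗ_apply_apply, inner_n_n] at this
      exact one_ne_zero this)
  rw [← measure_preimage_add_right volume (-T.A (i + 1))] at h1
  convert h1 using 2
  ext x; simp [h, sub_eq_add_neg]

lemma nu_inter_M0 (B : Set St) : nu (B ∩ T.M0) ≤ nu (B ∩ T.Int) := by
  have h0 : nu (⋃ i, {p : St | T.h i p.1.1 = 0}) = 0 := by
    refine measure_iUnion_null fun i => ?_
    have : {p : St | T.h i p.1.1 = 0} = ({x : Plane | T.h i x = 0} ×ˢ univ) ×ˢ univ := by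
      ext p; simp
    rw [this, nu, Measure.prod_prod, Measure.prod_prod, volume_line]; simp
  calc nu (B ∩ T.M0) ≤ nu ((B ∩ T.Int) ∪ ⋃ i, {p : St | T.h i p.1.1 = 0}) := by
        refine measure_mono fun p hp => ?_
        by_cases h : p ∈ T.Int
        · exact Or.inl ⟨hp.1, h⟩
        · right
          simp only [Int, mem_ofPred_eq, not_forall, not_lt] at h
          obtain ⟨i, hi⟩ := h
          exact mem_iUnion.2 ⟨i, le_antisymm hi (T.nonneg_of_not_bad (hp.2 i))⟩
    _ ≤ _ := (measure_union_le _ _).trans (by rw [h0, add_zero])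

/-- the domain of a safely short step -/
def Dom (c : ℝ) : Set St := {p | p ∈ T.M0 ∧ c < T.κ * T.d p}

lemma measurableSet_Dom (c : ℝ) : MeasurableSet (T.Dom c) :=
  T.measurableSet_M0.inter
    (measurableSet_lt measurable_const (T.continuous_d.measurable.const_mul _))

lemma mu_step_le {a : ℂ} {c : ℝ} (hc : 2 * ‖a‖ ≤ c) {B : Set St} (hB : MeasurableSet B) :
    T.mu (T.Dom c ∩ T.step a ⁻¹' B) ≤ T.mu B := by
  set E := T.Dom c ∩ T.step a ⁻¹' B with hE
  have hEm : MeasurableSet E := (T.measurableSet_Dom c).inter (T.measurable_step a hB)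
  let P : Option (Fin 3) → Set St := fun k => match k with
    | none => E ∩ shift a ⁻¹' T.M0
    | some i => E ∩ shift a ⁻¹' {p | T.Bad i p}
  let χ : Option (Fin 3) → St → St := fun k => match k with
    | none => shift (-a)
    | some i => shift (-a) ∘ T.refl i
  have hlt : ∀ p ∈ E, 2 * ‖a‖ < T.κ * T.d p := fun p hp => hc.trans_lt hp.1.2
  have hlt' : ∀ p ∈ E, ‖a‖ < T.κ * T.d p := fun p hp => by linarith [hlt p hp, norm_nonneg a]
  have hstep : ∀ k q, χ k q ∈ P k → T.step a (χ k q) = q := by
    rintro (_ | i) q hq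
    · have h1 : shift a (shift (-a) q) ∈ T.M0 := hq.2
      show T.step a (shift (-a) q) = q
      rw [step, T.fold_of_mem h1, shift_shift, add_neg_cancel, shift_zero]
    · obtain ⟨j, hj⟩ := T.exists_near hq.1.1.1
      have hb : T.Bad i (shift a (χ (some i) q)) := hq.2
      have hij : i = j := by
        by_contra hne
        exact T.not_bad_of_pos (hj _ (by rw [dist_shift]; exact hlt' _ hq.1) i hne) hb
      subst hij
      rcases T.step_spec hq.1.1.1 hj (hlt' _ hq.1) with ⟨h1, _⟩ | ⟨_, h2⟩
      · exact absurd hb h1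
      · rw [h2]
        show T.refl i (shift a (shift (-a) (T.refl i q))) = q
        rw [shift_shift, add_neg_cancel, shift_zero, refl_refl]
  have hPE : ∀ k, P k ⊆ E := by rintro (_ | i) <;> exact inter_subset_left
  have hPd : ∀ k l p, p ∈ P k → p ∈ P l → k = l := by
    rintro (_ | i) (_ | j) p h1 h2
    · rfl
    · exact absurd h2.2 (h1.2 j)
    · exact absurd h1.2 (h2.2 i)
    · obtain ⟨m, hm⟩ := T.exists_near h1.1.1.1
      have : ∀ i, T.Bad i (shift a p) → i = m := fun i hb => by
        by_contra hne
        exact T.not_bad_of_pos (hm _ (by rw [dist_shift]; exact hlt' _ h1.1) i hne) hb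
      rw [this i h1.2, this j h2.2]
  have key := measure_le_of_pieces nu χ (by
      rintro (_ | i)
      · exact mp_shift _
      · exact (mp_shift _).comp (T.mp_refl i)) P (by
      rintro (_ | i)
      · exact hEm.inter (measurable_shift a T.measurableSet_M0)
      · exact hEm.inter (measurable_shift a (T.measurableSet_bad i))) (by
      intro k l hkl
      rw [Function.onFun, Set.disjoint_left]
      intro q hk hl
      apply hkl
      have e : χ k q = χ l q := by
        rw [← T.step_neg_step (hPE k hk).1.1 (hlt _ (hPE k hk)), hstep k q hk,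
          ← T.step_neg_step (p := χ l q) (hPE l hl).1.1 (hlt _ (hPE l hl)), hstep l q hl]
      exact hPd k l _ hk (e ▸ hl)) (B := B ∩ T.M0) (by
      intro k q hq
      rw [← hstep k q hq]
      exact ⟨(hPE k hq).2, T.step_mem (hPE k hq).1.1 (hlt' _ (hPE k hq))⟩)
  calc T.mu E ≤ nu E := T.mu_le_nu _
    _ ≤ nu (⋃ k, P k) := by
        refine measure_mono fun p hp => ?_
        by_cases h : shift a p ∈ T.M0
        · exact mem_iUnion.2 ⟨none, hp, h⟩
        · simp only [M0, mem_ofPred_eq, not_forall, not_not] at h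
          obtain ⟨i, hi⟩ := h
          exact mem_iUnion.2 ⟨some i, hp, hi⟩
    _ ≤ nu (B ∩ T.M0) := key
    _ ≤ nu (B ∩ T.Int) := T.nu_inter_M0 B
    _ = T.mu B := by rw [mu_eq, Measure.restrict_apply hB]

lemma exists_mu_d_lt : ∃ C : ℝ, 0 ≤ C ∧
    ∀ ρ, 0 < ρ → T.mu {p | T.d p < ρ} ≤ ENNReal.ofReal (C * ρ ^ 2) := by
  set c : ENNReal := volume (Metric.ball (0 : Plane) 1) * sphM univ * 2 with hc
  have hc' : c ≠ ⊤ := ENNReal.mul_ne_top
    (ENNReal.mul_ne_top measure_ball_lt_top.ne (measure_ne_top _ _)) (by simp)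
  refine ⟨3 * c.toReal, by positivity, fun ρ hρ => ?_⟩
  calc T.mu {p | T.d p < ρ} ≤ nu (⋃ j, (Metric.ball (T.A j) ρ ×ˢ univ) ×ˢ univ) := by
        refine (T.mu_le_nu _).trans (measure_mono fun p hp => ?_)
        obtain ⟨_, ⟨j, rfl⟩, hj⟩ := (Metric.infDist_lt_iff (range_nonempty _)).1 hp
        exact mem_iUnion.2 ⟨j, by simpa using hj⟩
    _ ≤ ∑ j : Fin 3, nu ((Metric.ball (T.A j) ρ ×ˢ univ) ×ˢ univ) := measure_iUnion_fintype_le _ _
    _ = ∑ _j : Fin 3, ENNReal.ofReal (ρ ^ 2) * c := by
        congr 1; ext j
        rw [nu, Measure.prod_prod, Measure.prod_prod, Measure.addHaar_ball_of_pos _ _ hρ, hc,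
          count_bool]
        simp [mul_assoc]
    _ = _ := by
        rw [Finset.sum_const, Finset.card_univ, Fintype.card_fin, nsmul_eq_mul,
          ENNReal.ofReal_mul (by positivity), ENNReal.ofReal_mul (by positivity),
          ENNReal.ofReal_toReal hc']
        simp; ring

end Tri

end Crest.Agent.R103D
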