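import Crest.Agent.R103D.Orb
import Crest.Agent.R103D.Meas

/-!
# Row 103: almost every state has a complete orbit; the flow is measurable and measure preserving
-/

set_option autoImplicit false
open MeasureTheory Filter Topology Set
open scoped RealInnerProductSpace
open Crest.AnalysisR.Billiard

namespace Crest.Agent.R103D

namespace Tri

variable (T : Tri)

lemma locOrb_of_seq {q : ℤ → St} {h : ℝ} (hh : 0 < h) {J : ℕ}
    (hD : ∀ j : ℤ, -(J : ℤ) ≤ j → j ≤ J → q j ∈ T.Dom (2 * h))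
    (hS : ∀ j : ℤ, -(J : ℤ) ≤ j → j < J → q (j + 1) = T.step (h : ℂ) (q j)) {t : ℝ}
    (ht : |t| < J * h) :
    T.LocOrb (fun u : ℝ => T.step ((u - ⌊u / h⌋ * h : ℝ) : ℂ) (q ⌊u / h⌋)) t := by
  obtain ⟨ht1, ht2⟩ := abs_lt.1 ht
  have low : ∀ u : ℝ, -(J * h) < u → -(J : ℤ) ≤ ⌊u / h⌋ := by
    intro u hu
    rw [Int.le_floor, le_div_iff₀ hh]; push_cast; linarith
  set j := ⌊t / h⌋ with hj
  have j1 : -(J : ℤ) ≤ j := low t ht1
  have j2 : j < J := by
    rw [hj, Int.floor_lt, div_lt_iff₀ hh]; push_cast; linarith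
  have a1 : j * h ≤ t := by rw [← le_div_iff₀ hh]; exact Int.floor_le _
  have a2 : t < (j + 1) * h := by rw [← div_lt_iff₀ hh]; exact Int.lt_floor_add_one _
  have hq := hD j j1 j2.le
  have h1 : T.LocOrb (fun u : ℝ => T.step ((u + -(j * h) : ℝ) : ℂ) (q j)) t := by
    refine LocOrb.shift_time (γ := fun u : ℝ => T.step (u : ℂ) (q j)) (T.locOrb_step hq.1 ?_)
    refine lt_trans ?_ hq.2
    rw [abs_lt]; constructor <;> nlinarith
  refine h1.congr ?_
  have e1 : ∀ᶠ u in 𝓝 t, -(J * h) < u := lt_mem_nhds ht1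
  have e2 : ∀ᶠ u in 𝓝 t, u < (j + 1) * h := gt_mem_nhds a2
  have e3 : ∀ᶠ u in 𝓝 t, (j - 1) * h < u := lt_mem_nhds (by nlinarith)
  filter_upwards [e1, e2, e3] with u u1 u2 u3
  have b1 : j - 1 ≤ ⌊u / h⌋ := by rw [Int.le_floor, le_div_iff₀ hh]; push_cast; linarith
  have b2 : ⌊u / h⌋ < j + 1 := by rw [Int.floor_lt, div_lt_iff₀ hh]; push_cast; linarith
  rcases (by omega : ⌊u / h⌋ = j ∨ ⌊u / h⌋ = j - 1) with e | e
  · rw [e, sub_eq_add_neg]
  · have b3 := low u u1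
    have b4 : u < j * h := by
      have := Int.lt_floor_add_one (u / h)
      rw [e, div_lt_iff₀ hh] at this; push_cast at this; linarith
    rw [e] at b3 ⊢
    have hq' := hD (j - 1) b3 (by omega)
    have := hS (j - 1) b3 (by omega)
    rw [sub_add_cancel] at this
    rw [this, T.step_step hq'.1]
    · congr 1; push_cast; ring
    · refine lt_of_le_of_lt ?_ hq'.2
      simp only [Complex.norm_real, Real.norm_eq_abs]
      rw [abs_of_pos hh, abs_of_neg (by linarith)]; linarith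

lemma exists_locOrb {p : St} {h : ℝ} (hh : 0 < h) {J : ℕ}
    (h1 : ∀ j ≤ J, (T.step (h : ℂ))^[j] p ∈ T.Dom (2 * h))
    (h2 : ∀ j ≤ J, (T.step ((-h : ℝ) : ℂ))^[j] p ∈ T.Dom (2 * h)) :
    ∃ γ : ℝ → St, γ 0 = p ∧ ∀ t, |t| < J * h → T.LocOrb γ t := by
  let q : ℤ → St := fun j =>
    if 0 ≤ j then (T.step (h : ℂ))^[j.toNat] p else (T.step ((-h : ℝ) : ℂ))^[(-j).toNat] p
  have hneg : ∀ j : ℤ, j ≤ 0 → q j = (T.step ((-h : ℝ) : ℂ))^[(-j).toNat] p := by
    intro j hj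
    rcases hj.lt_or_eq with h | rfl
    · simp [q, h.not_ge]
    · simp [q]
  have hD : ∀ j : ℤ, -(J : ℤ) ≤ j → j ≤ J → q j ∈ T.Dom (2 * h) := by
    intro j j1 j2
    by_cases hj : 0 ≤ j
    · simp only [q, hj, if_true]; exact h1 _ (by omega)
    · simp only [q, hj, if_false]; exact h2 _ (by omega)
  refine ⟨_, ?_, fun t ht => T.locOrb_of_seq (q := q) hh hD ?_ ht⟩
  · have := (h1 0 (Nat.zero_le _)).1
    simpa [q] using T.step_zero this
  · intro j j1 j2
    by_cases hj : 0 ≤ j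
    · have : (j + 1).toNat = j.toNat + 1 := by omega
      simp only [q, hj, if_true, (by omega : 0 ≤ j + 1), this, Function.iterate_succ_apply']
    · have e : (-j).toNat = (-(j + 1)).toNat + 1 := by omega
      have hq := hD (j + 1) (by omega) (by omega)
      rw [hneg j (by omega), e, Function.iterate_succ_apply', ← hneg (j + 1) (by omega)]
      have := T.step_neg_step (a := ((-h : ℝ) : ℂ)) hq.1 (by
        simp only [Complex.norm_real, Real.norm_eq_abs, abs_neg, abs_of_pos hh]; exact hq.2)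
      simpa using this.symm

lemma good_of_forall {p : St}
    (h : ∀ N : ℕ, ∃ γ : ℝ → St, γ 0 = p ∧ ∀ t : ℝ, |t| < N → T.LocOrb γ t) : p ∈ T.Good := by
  choose γ h0 hγ using h
  have key : ∀ (M N : ℕ) (u : ℝ), |u| < M → |u| < N → γ M u = γ N u := by
    intro M N u h1 h2
    exact T.locOrb_unique isPreconnected_uIcc
      (fun v hv => hγ M v ((abs_le_of_mem_uIcc hv).trans_lt h1))
      (fun v hv => hγ N v ((abs_le_of_mem_uIcc hv).trans_lt h2)) left_mem_uIcc right_mem_uIcc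
      (by rw [h0, h0])
  have lt : ∀ u : ℝ, |u| < ((⌊|u|⌋₊ + 1 : ℕ) : ℝ) := fun u => by
    push_cast; exact Nat.lt_floor_add_one _
  refine ⟨fun u => γ (⌊|u|⌋₊ + 1) u, h0 _, fun t => (hγ _ t (lt t)).congr ?_⟩
  have : ∀ᶠ u in 𝓝 t, |u| < ((⌊|t|⌋₊ + 1 : ℕ) : ℝ) :=
    (continuous_abs.tendsto t).eventually (gt_mem_nhds (lt t))
  filter_upwards [this] with u hu
  exact key _ _ u (lt u) hu

lemma iterate_eq_phi {p : St} (hp : p ∈ T.Good) {h : ℝ} {J : ℕ}
    (hd : ∀ u : ℝ, |u| ≤ J * |h| → |h| < T.κ * T.d (T.phi u p)) :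
    ∀ j ≤ J, (T.step (h : ℂ))^[j] p = T.phi (j * h) p := by
  intro j
  induction j with
  | zero => intro _; simp [phi_zero]
  | succ j ih =>
    intro hj
    rw [Function.iterate_succ_apply', ih (by omega), ← T.phi_eq_step (T.phi_mem_good hp _),
      ← phi_add]
    · congr 1; push_cast; ring
    · apply hd
      rw [abs_mul, Nat.abs_cast]
      exact mul_le_mul_of_nonneg_right (by exact_mod_cast (by omega : j ≤ J)) (abs_nonneg _)

lemma exists_delta {p : St} (hp : p ∈ T.Good) (N : ℝ) :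
    ∃ m : ℕ, ∀ u : ℝ, |u| ≤ N → 1 / ((m : ℝ) + 1) ≤ T.d (T.phi u p) := by
  obtain ⟨u₀, -, hu₀⟩ := (isCompact_Icc (a := -|N|) (b := |N|)).exists_isMinOn
    ⟨0, by simp⟩ (T.continuous_d_phi p).continuousOn
  obtain ⟨m, hm⟩ := exists_nat_one_div_lt (T.d_phi_pos hp u₀)
  refine ⟨m, fun u hu => hm.le.trans (hu₀ ?_)⟩
  exact abs_le.1 (hu.trans (le_abs_self N))

lemma ev_div_lt {c δ : ℝ} (hδ : 0 < δ) : ∀ᶠ k : ℕ in atTop, c / ((k : ℝ) + 1) < δ := by
  have := tendsto_one_div_add_atTop_nhds_zero_nat (𝕜 := ℝ) |>.const_mul c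
  simp only [mul_zero, mul_one_div] at this
  exact this.eventually (gt_mem_nhds hδ)

/-- `n` safe steps -/
def Safe (a : ℂ) (c : ℝ) (n : ℕ) : Set St := {p | ∀ j < n, (T.step a)^[j] p ∈ T.Dom c}

lemma measurableSet_Safe (a : ℂ) (c : ℝ) (n : ℕ) : MeasurableSet (T.Safe a c n) := by
  have : T.Safe a c n = ⋂ j, ⋂ (_ : j < n), (T.step a)^[j] ⁻¹' T.Dom c := by
    ext p; simp [Safe]
  rw [this]
  exact MeasurableSet.iInter fun j => MeasurableSet.iInter fun _ =>
    (T.measurable_step a).iterate j (T.measurableSet_Dom c)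

lemma safe_succ (a : ℂ) (c : ℝ) (n : ℕ) :
    T.Safe a c (n + 1) = T.Dom c ∩ T.step a ⁻¹' T.Safe a c n := by
  ext p
  simp only [Safe, mem_ofPred_eq, mem_inter_iff, mem_preimage, ← Function.iterate_succ_apply]
  constructor
  · exact fun h => ⟨h 0 (by omega), fun j hj => h _ (by omega)⟩
  · rintro ⟨h0, h1⟩ (_ | j) hj
    · exact h0
    · exact h1 j (by omega)

lemma mu_safe_le {a : ℂ} {c : ℝ} (hc : 2 * ‖a‖ ≤ c) (n : ℕ) {B : Set St} (hB : MeasurableSet B) :
    T.mu (T.Safe a c n ∩ (T.step a)^[n] ⁻¹' B) ≤ T.mu B := by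
  induction n with
  | zero => exact measure_mono inter_subset_right
  | succ n ih =>
    refine le_trans (le_of_eq ?_) ((T.mu_step_le hc ((T.measurableSet_Safe a c n).inter
      ((T.measurable_step a).iterate n hB))).trans ih)
    rw [safe_succ, Function.iterate_succ, preimage_comp, preimage_inter, inter_assoc]

lemma mu_safe_compl {a : ℂ} {c : ℝ} (hc : 2 * ‖a‖ ≤ c) (n : ℕ) :
    T.mu (T.Safe a c n)ᶜ ≤ n * T.mu (T.Dom c)ᶜ := by
  induction n with
  | zero => simp [Safe]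
  | succ n ih =>
    calc T.mu (T.Safe a c (n + 1))ᶜ
        ≤ T.mu ((T.Dom c ∩ T.step a ⁻¹' (T.Safe a c n)ᶜ) ∪ (T.Dom c)ᶜ) := by
          refine measure_mono fun p hp => ?_
          rw [safe_succ] at hp
          by_cases h : p ∈ T.Dom c
          · exact Or.inl ⟨h, fun h' => hp ⟨h, h'⟩⟩
          · exact Or.inr h
      _ ≤ n * T.mu (T.Dom c)ᶜ + T.mu (T.Dom c)ᶜ := (measure_union_le _ _).trans
          (add_le_add ((T.mu_step_le hc (T.measurableSet_Safe a c n).compl).trans ih) le_rfl)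
      _ = _ := by push_cast; ring

/-- the explicit approximations of `Good` -/
def G (N k : ℕ) : Set St :=
  T.Safe ((1 / ((k : ℝ) + 1) : ℝ) : ℂ) (2 * (1 / ((k : ℝ) + 1))) (N * (k + 1) + 1) ∩
    T.Safe ((-(1 / ((k : ℝ) + 1)) : ℝ) : ℂ) (2 * (1 / ((k : ℝ) + 1))) (N * (k + 1) + 1)

lemma good_eq : T.Good = ⋂ N, ⋃ k, T.G N k := by
  ext p
  simp only [mem_iInter, mem_iUnion]
  constructor
  · intro hp N
    obtain ⟨m, hm⟩ := T.exists_delta hp N
    obtain ⟨k, hk⟩ := (ev_div_lt (c := 2) (δ := T.κ * (1 / ((m : ℝ) + 1)))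
      (mul_pos T.κ_pos (by positivity))).exists
    have hk0 : (0 : ℝ) < 1 / ((k : ℝ) + 1) := by positivity
    have key : ∀ h : ℝ, |h| = 1 / ((k : ℝ) + 1) →
        p ∈ T.Safe (h : ℂ) (2 * (1 / ((k : ℝ) + 1))) (N * (k + 1) + 1) := by
      intro h hh j hj
      have hd : ∀ u : ℝ, |u| ≤ (N * (k + 1) : ℕ) * |h| →
          2 * (1 / ((k : ℝ) + 1)) < T.κ * T.d (T.phi u p) := by
        intro u hu
        rw [hh] at hu
        have := hm u (hu.trans (le_of_eq (by push_cast; field_simp)))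
        rw [mul_one_div]
        exact hk.trans_le (mul_le_mul_of_nonneg_left this T.κ_pos.le)
      rw [T.iterate_eq_phi hp (J := N * (k + 1)) (fun u hu => by linarith [hd u hu]) j (by omega)]
      refine ⟨T.phi_mem_M0 hp _, hd _ ?_⟩
      rw [abs_mul, Nat.abs_cast]
      exact mul_le_mul_of_nonneg_right (by exact_mod_cast (by omega : j ≤ N * (k + 1)))
        (abs_nonneg _)
    exact ⟨k, key _ (abs_of_pos hk0), key _ (by rw [abs_neg, abs_of_pos hk0])⟩
  · intro h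
    refine T.good_of_forall fun N => ?_
    obtain ⟨k, h1, h2⟩ := h N
    obtain ⟨γ, h0, hγ⟩ := T.exists_locOrb (p := p) (h := 1 / ((k : ℝ) + 1)) (J := N * (k + 1))
      (by positivity) (fun j hj => h1 j (by omega)) (fun j hj => h2 j (by omega))
    refine ⟨γ, h0, fun t ht => hγ t (ht.trans_le (le_of_eq ?_))⟩
    push_cast; field_simp

lemma measurableSet_G (N k : ℕ) : MeasurableSet (T.G N k) :=
  (T.measurableSet_Safe _ _ _).inter (T.measurableSet_Safe _ _ _)

lemma measurableSet_good : MeasurableSet T.Good := by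
  rw [good_eq]
  exact MeasurableSet.iInter fun N => MeasurableSet.iUnion fun k => T.measurableSet_G N k

lemma ae_good : ∀ᵐ p ∂T.mu, p ∈ T.Good := by
  obtain ⟨C, hC0, hC⟩ := T.exists_mu_d_lt
  have hκ := T.κ_pos
  have hdom : ∀ c, 0 < c → T.mu (T.Dom c)ᶜ ≤ ENNReal.ofReal (C * (2 * c / T.κ) ^ 2) := by
    intro c hc
    refine le_trans (measure_mono_ae ?_) (hC _ (by positivity))
    filter_upwards [T.ae_int] with p hp hp'
    show T.d p < 2 * c / T.κ
    have : ¬ c < T.κ * T.d p := fun h => hp' ⟨T.int_subset hp, h⟩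
    rw [lt_div_iff₀ hκ]; linarith
  rw [good_eq]
  simp only [mem_iInter]
  rw [ae_all_iff]
  intro N
  rw [ae_iff]
  refine le_antisymm (ENNReal.le_of_forall_pos_le_add fun ε hε _ => ?_) bot_le
  obtain ⟨k, hk⟩ := (ev_div_lt (c := 2 * ((N + 1) * (C * (4 / T.κ) ^ 2))) (δ := (ε : ℝ))
    (by exact_mod_cast hε)).exists
  have hk0 : (0 : ℝ) < 1 / ((k : ℝ) + 1) := by positivity
  have b : ∀ h : ℝ, |h| = 1 / ((k : ℝ) + 1) →
      T.mu (T.Safe (h : ℂ) (2 * (1 / ((k : ℝ) + 1))) (N * (k + 1) + 1))ᶜ ≤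
        ENNReal.ofReal ((N + 1) * (C * (4 / T.κ) ^ 2) / ((k : ℝ) + 1)) := by
    intro h hh
    refine (T.mu_safe_compl (by simp [hh]) _).trans ?_
    refine (mul_le_mul_right (hdom _ (by positivity)) _).trans ?_
    rw [← ENNReal.ofReal_natCast, ← ENNReal.ofReal_mul (by positivity)]
    apply ENNReal.ofReal_le_ofReal
    have e : ((N * (k + 1) + 1 : ℕ) : ℝ) ≤ (N + 1) * ((k : ℝ) + 1) := by
      push_cast; nlinarith [(Nat.cast_nonneg k : (0 : ℝ) ≤ k)]
    refine (mul_le_mul_of_nonneg_right e (by positivity)).trans (le_of_eq ?_)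
    field_simp; ring
  calc T.mu {p | ¬ p ∈ ⋃ k, T.G N k} ≤ T.mu (T.G N k)ᶜ :=
        measure_mono fun p hp h => hp (mem_iUnion.2 ⟨k, h⟩)
    _ ≤ _ := by
        rw [G, compl_inter]
        refine (measure_union_le _ _).trans ((add_le_add (b _ (abs_of_pos hk0))
          (b _ (by rw [abs_neg, abs_of_pos hk0]))).trans ?_)
        rw [← ENNReal.ofReal_add (by positivity) (by positivity), zero_add,
          ← ENNReal.ofReal_coe_nnreal]
        apply ENNReal.ofReal_le_ofReal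
        refine le_trans (le_of_eq ?_) hk.le
        ring

lemma safe_of_delta {p : St} (hp : p ∈ T.Good) {t δ : ℝ}
    (hd : ∀ u : ℝ, |u| ≤ |t| → δ ≤ T.d (T.phi u p)) {k : ℕ}
    (hk : 2 * |t| / ((k : ℝ) + 1) < T.κ * δ) :
    p ∈ T.Safe ((t / ((k : ℝ) + 1) : ℝ) : ℂ) (2 * |t| / ((k : ℝ) + 1)) (k + 1) ∧
      (T.step ((t / ((k : ℝ) + 1) : ℝ) : ℂ))^[k + 1] p = T.phi t p := by
  have hk0 : (0 : ℝ) < (k : ℝ) + 1 := by positivity
  have ha : |t / ((k : ℝ) + 1)| = |t| / ((k : ℝ) + 1) := by rw [abs_div, abs_of_pos hk0]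
  have hd' : ∀ u : ℝ, |u| ≤ (k + 1 : ℕ) * |t / ((k : ℝ) + 1)| →
      2 * |t| / ((k : ℝ) + 1) < T.κ * T.d (T.phi u p) := by
    intro u hu
    rw [ha] at hu
    exact hk.trans_le (mul_le_mul_of_nonneg_left
      (hd u (hu.trans (le_of_eq (by push_cast; field_simp)))) T.κ_pos.le)
  have hit := T.iterate_eq_phi hp (h := t / ((k : ℝ) + 1)) (J := k + 1) (fun u hu => by
    have := hd' u hu
    rw [ha]
    have h0 : 0 ≤ |t| / ((k : ℝ) + 1) := by positivity
    rw [mul_div_assoc] at this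
    linarith)
  refine ⟨fun j hj => ?_, ?_⟩
  · rw [hit j hj.le]
    refine ⟨T.phi_mem_M0 hp _, hd' _ ?_⟩
    rw [abs_mul, Nat.abs_cast]
    exact mul_le_mul_of_nonneg_right (by exact_mod_cast hj.le) (abs_nonneg _)
  · rw [hit _ le_rfl]; congr 1; push_cast; field_simp

lemma measurable_phi (t : ℝ) : Measurable (T.phi t) := by
  classical
  refine measurable_of_tendsto_metrizable (f := fun k : ℕ => fun p =>
    if p ∈ T.Good then (T.step ((t / ((k : ℝ) + 1) : ℝ) : ℂ))^[k + 1] p else p)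
    (fun k => Measurable.ite T.measurableSet_good ((T.measurable_step _).iterate _) measurable_id)
    ?_
  rw [tendsto_pi_nhds]
  intro p
  by_cases hp : p ∈ T.Good
  · obtain ⟨m, hm⟩ := T.exists_delta hp |t|
    refine tendsto_const_nhds.congr' ?_
    filter_upwards [ev_div_lt (c := 2 * |t|) (δ := T.κ * (1 / ((m : ℝ) + 1)))
      (mul_pos T.κ_pos (by positivity))] with k hk
    rw [if_pos hp, (T.safe_of_delta hp hm hk).2]
  · simp [hp, T.phi_of_not_good hp]

lemma mu_phi_le (t : ℝ) {B : Set St} (hB : MeasurableSet B) : T.mu (T.phi t ⁻¹' B) ≤ T.mu B := by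
  let A : ℕ → Set St := fun m =>
    {p | p ∈ T.Good ∧ ∀ u : ℝ, |u| ≤ |t| → 1 / ((m : ℝ) + 1) ≤ T.d (T.phi u p)} ∩ T.phi t ⁻¹' B
  have hmono : Monotone A := by
    intro m n hmn p hp
    refine ⟨⟨hp.1.1, fun u hu => le_trans ?_ (hp.1.2 u hu)⟩, hp.2⟩
    exact Nat.one_div_le_one_div hmn
  calc T.mu (T.phi t ⁻¹' B) ≤ T.mu (⋃ m, A m) := by
        refine measure_mono_ae ?_
        filter_upwards [T.ae_good] with p hp hp'
        obtain ⟨m, hm⟩ := T.exists_delta hp |t|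
        exact mem_iUnion.2 ⟨m, ⟨hp, hm⟩, hp'⟩
    _ = ⨆ m, T.mu (A m) := hmono.measure_iUnion
    _ ≤ T.mu B := by
        refine iSup_le fun m => ?_
        obtain ⟨k, hk⟩ := (ev_div_lt (c := 2 * |t|) (δ := T.κ * (1 / ((m : ℝ) + 1)))
          (mul_pos T.κ_pos (by positivity))).exists
        refine le_trans (measure_mono fun p hp => ?_)
          (T.mu_safe_le (a := ((t / ((k : ℝ) + 1) : ℝ) : ℂ)) (c := 2 * |t| / ((k : ℝ) + 1)) ?_
            (k + 1) hB)
        · have := T.safe_of_delta hp.1.1 hp.1.2 hk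
          exact ⟨this.1, by rw [mem_preimage, this.2]; exact hp.2⟩
        · rw [Complex.norm_real, Real.norm_eq_abs, abs_div,
            abs_of_pos (by positivity : (0 : ℝ) < (k : ℝ) + 1), mul_div_assoc]

lemma mp_phi (t : ℝ) : MeasurePreserving (T.phi t) T.mu T.mu := by
  refine ⟨T.measurable_phi t, ?_⟩
  ext B hB
  rw [Measure.map_apply (T.measurable_phi t) hB]
  refine le_antisymm (T.mu_phi_le t hB) ?_
  have h1 := T.mu_phi_le t hB.compl
  rw [preimage_compl, measure_compl (T.measurable_phi t hB) (measure_ne_top _ _),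
    measure_compl hB (measure_ne_top _ _)] at h1
  exact (ENNReal.sub_le_sub_iff_left (measure_mono (subset_univ _)) (measure_ne_top _ _)).1 h1

lemma mp_fl (θ t : ℝ) : MeasurePreserving (T.fl θ t) T.mu T.mu :=
  (T.mp_rot (-θ)).comp ((T.mp_phi t).comp (T.mp_rot θ))

lemma ae_rot_good (θ : ℝ) : ∀ᵐ p ∂T.mu, rot θ p ∈ T.Good :=
  (T.mp_rot θ).quasiMeasurePreserving.ae T.ae_good

lemma ae_tendsto_phi : ∀ᵐ p ∂T.mu, Tendsto (fun t => T.phi t p) (𝓝 0) (𝓝 p) := by
  filter_upwards [T.ae_good, T.ae_int] with p h1 h2 using T.tendsto_phi h1 h2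

end Tri

end Crest.Agent.R103D
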