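import Crest.Agent.R103D.Good

/-!
# Row 103: a function invariant under all directional flows is constant
-/

set_option autoImplicit false
open MeasureTheory Filter Topology Set
open scoped RealInnerProductSpace
open Crest.AnalysisR.Billiard

namespace Crest.Agent.R103D

local instance factTwoPi : Fact (0 < 2 * Real.pi) := ⟨Real.two_pi_pos⟩

/-- rotation of a unit vector by a point of the additive circle -/
noncomputable def rotA (θ : AddCircle (2 * Real.pi)) (v : Sph) : Sph :=
  ⟨frv v true (θ.toCircle : ℂ), by simp [norm_frv, Circle.norm_coe]⟩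

lemma toCircle_coe (x : ℝ) :
    ((AddCircle.toCircle (T := 2 * Real.pi) (x : AddCircle (2 * Real.pi)) : Circle) : ℂ) = ex x := by
  rw [AddCircle.toCircle_apply_mk, div_self Real.two_pi_pos.ne', one_mul, Circle.coe_exp, ex]

lemma rotA_coe (x : ℝ) : rotA (x : AddCircle (2 * Real.pi)) = rotS true x := by
  ext1 v; apply Subtype.ext
  simp only [rotA, rotS, toCircle_coe]

lemma rotA_add (a b : AddCircle (2 * Real.pi)) (v : Sph) : rotA (a + b) v = rotA a (rotA b v) := by
  apply Subtype.ext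
  simp only [rotA, frv_frv, AddCircle.toCircle_add, Circle.coe_mul, mul_comm]

lemma continuous_rotA : Continuous fun z : AddCircle (2 * Real.pi) × Sph => rotA z.1 z.2 := by
  refine Continuous.subtype_mk ?_ _
  unfold frv
  have := continuous_J
  have h2 : Continuous fun z : AddCircle (2 * Real.pi) × Sph => (z.1.toCircle : ℂ) :=
    continuous_subtype_val.comp (AddCircle.continuous_toCircle.comp continuous_fst)
  fun_prop

lemma mp_rotA (a : AddCircle (2 * Real.pi)) : MeasurePreserving (rotA a) sphM sphM := by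
  induction a using QuotientAddGroup.induction_on with
  | H x => rw [rotA_coe]; exact mp_rotS _ _

/-- base point of the circle -/
noncomputable def v0 : Sph := ⟨!₂[1, 0], by simp [EuclideanSpace.norm_eq, Fin.sum_univ_two]⟩

lemma exists_rotA (v : Sph) : ∃ a, rotA a v0 = v := by
  set z : ℂ := ⟨(v : Plane) 0, (v : Plane) 1⟩ with hz
  have hz1 : ‖z‖ = 1 := by
    have : ‖z‖ ^ 2 = 1 ^ 2 := by
      rw [Complex.sq_norm, Complex.normSq_apply, ← norm_sph v, normsq_plane, hz]; ring
    exact (pow_left_inj₀ (norm_nonneg _) zero_le_one two_ne_zero).1 this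
  have hex : ex z.arg = z := by
    have := Complex.norm_mul_exp_arg_mul_I z
    rwa [hz1, Complex.ofReal_one, one_mul] at this
  refine ⟨(z.arg : ℝ), Subtype.ext ?_⟩
  simp only [rotA, toCircle_coe, hex]
  apply plane_ext <;> simp [v0, hz]

lemma mp_circle : MeasurePreserving (fun a => rotA a v0)
    (sphM univ • (volume : Measure (AddCircle (2 * Real.pi))))
    ((volume : Measure (AddCircle (2 * Real.pi))) univ • sphM) := by
  have hm : Measurable fun a => rotA a v0 :=
    (continuous_rotA.comp (continuous_id.prodMk continuous_const)).measurable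
  refine ⟨hm, ?_⟩
  ext N hN
  rw [Measure.map_apply hm hN, Measure.smul_apply, Measure.smul_apply, smul_eq_mul, smul_eq_mul]
  have hS : MeasurableSet {z : AddCircle (2 * Real.pi) × Sph | rotA z.1 z.2 ∈ N} :=
    continuous_rotA.measurable hN
  have h1 := Measure.prod_apply (μ := volume) (ν := sphM) hS
  have h2 := Measure.prod_apply_symm (μ := volume) (ν := sphM) hS
  have e1 : ∀ a : AddCircle (2 * Real.pi),
      sphM (Prod.mk a ⁻¹' {z : AddCircle (2 * Real.pi) × Sph | rotA z.1 z.2 ∈ N}) = sphM N :=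
    fun a => (mp_rotA a).measure_preimage hN.nullMeasurableSet
  have e2 : ∀ v : Sph, volume ((fun a => (a, v)) ⁻¹'
      {z : AddCircle (2 * Real.pi) × Sph | rotA z.1 z.2 ∈ N}) =
      volume ((fun a => rotA a v0) ⁻¹' N) := by
    intro v
    obtain ⟨b, rfl⟩ := exists_rotA v
    rw [← measure_preimage_add_right volume b ((fun a => rotA a v0) ⁻¹' N)]
    congr 1
    ext a; simp [rotA_add]
  simp only [e1, e2, lintegral_const] at h1 h2
  rw [mul_comm, ← h2, h1, mul_comm]

lemma const_of_rot {β : ℝ} (hβ : Irrational (β / (2 * Real.pi))) {f : Sph → ℝ}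
    (hf : Measurable f) (h : ∀ᵐ v ∂sphM, f (rotS true β v) = f v) :
    ∃ c, ∀ᵐ v ∂sphM, f v = c := by
  have h1 : Ergodic ((β : AddCircle (2 * Real.pi)) + ·) volume := by
    rw [AddCircle.ergodic_add_left, addOrderOf_eq_zero_iff,
      AddCircle.isOfFinAddOrder_iff_exists_rat_eq_div]
    exact hβ
  have h2 : Ergodic (rotS true β)
      ((volume : Measure (AddCircle (2 * Real.pi))) univ • sphM) :=
    mp_circle.ergodic_of_ergodic_semiconj (h1.smul_measure _) (mp_rotS _ _).measurable
      fun a => by simp only [rotA_add, rotA_coe]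
  obtain ⟨c, hc⟩ := h2.ae_eq_const_of_ae_eq_comp_ae hf.aestronglyMeasurable
    (Measure.ae_smul_measure h _)
  refine ⟨c, (Measure.ae_ennreal_smul_measure_iff ?_).1 hc⟩
  simp [Real.pi_pos]

/-- the frame as a linear isometry from the complex numbers onto the plane -/
noncomputable def frC (p : St) : ℂ ≃ₗᵢ[ℝ] Plane :=
  LinearIsometry.toLinearIsometryEquiv
    { toFun := fr p
      map_add' := fr_add p
      map_smul' := fun c a => by simpa using fr_real_mul p c a
      norm_map' := norm_fr p } (by simp)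

lemma frC_apply (p : St) (a : ℂ) : frC p a = fr p a := rfl

lemma ae_fr_iff {P : Sph × Bool → Prop} (h : ∀ᵐ g ∂frM, P g) (e : Bool) :
    ∀ᵐ v ∂sphM, P (v, e) := by
  filter_upwards [Measure.ae_ae_of_ae_prod h] with v hv using Measure.ae_count_iff.1 hv e

lemma exists_dir {n v : Plane} (hn : ‖n‖ = 1) (hv : ‖v‖ = 1) (e : Bool) :
    ∃ k : ℤ, ⟪n, frv v e (ex (k * (Real.pi / 2)))⟫ < 0 := by
  have hex : ∀ θ : ℝ, ⟪n, frv v e (ex θ)⟫ = Real.cos θ * (n 0 * v 0 + n 1 * v 1) +
      Real.sin θ * (sg e * (n 1 * v 0 - n 0 * v 1)) := by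
    intro θ
    rw [inner_plane, frv_0, frv_1, ex, Complex.exp_ofReal_mul_I_re, Complex.exp_ofReal_mul_I_im]
    ring
  by_contra hc
  push Not at hc
  have h0 := hc 0
  have h1 := hc 1
  have h2 := hc 2
  have h3 := hc (-1)
  rw [hex] at h0 h1 h2 h3
  have e2 : ((2 : ℤ) : ℝ) * (Real.pi / 2) = Real.pi := by push_cast; ring
  rw [e2] at h2
  simp at h0 h1 h2 h3
  have a1 : n 0 * v 0 + n 1 * v 1 = 0 := by linarith
  have a2 : sg e * (n 1 * v 0 - n 0 * v 1) = 0 := by linarith
  have b1 : n 0 ^ 2 + n 1 ^ 2 = 1 := by rw [← normsq_plane, hn]; norm_num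
  have b2 : v 0 ^ 2 + v 1 ^ 2 = 1 := by rw [← normsq_plane, hv]; norm_num
  have a3 : n 1 * v 0 - n 0 * v 1 = 0 := by
    linear_combination (sg e) * a2 - (n 1 * v 0 - n 0 * v 1) * sg_sq e
  have : (0 : ℝ) = 1 := by
    linear_combination (-(n 0 * v 0 + n 1 * v 1)) * a1 - (n 1 * v 0 - n 0 * v 1) * a3 +
      (v 0 ^ 2 + v 1 ^ 2) * b1 + b2
  exact zero_ne_one this

namespace Tri

variable (T : Tri)

lemma ae_ae_of_mu {P : St → Prop} (h : ∀ᵐ p ∂T.mu, P p) :
    ∀ᵐ g ∂frM, ∀ᵐ x ∂T.area, P ((x, g.1), g.2) :=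
  Measure.ae_ae_of_ae_prod ((T.mp_reord_mu.symm reord).quasiMeasurePreserving.ae h)

lemma exists_frame_fun {u : St → ℝ} (hu : Measurable u)
    (hinv : ∀ θ t, ∀ᵐ p ∂T.mu, u (T.fl θ t p) = u p) :
    ∃ c : Sph × Bool → ℝ, Measurable c ∧ ∀ᵐ p ∂T.mu, u p = c (p.1.2, p.2) := by
  have h1 : ∀ a : ℂ, ∀ᵐ p ∂T.mu, shift a p ∈ T.Int → u (shift a p) = u p := by
    intro a
    filter_upwards [hinv a.arg ‖a‖, T.ae_rot_good a.arg, T.ae_int] with p h1 h2 h3 h4
    have e : (‖a‖ : ℂ) * ex a.arg = a := Complex.norm_mul_exp_arg_mul_I a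
    rw [T.fl_eq_shift h2 h3 (by rwa [e]), e] at h1
    exact h1
  have hS : MeasurableSet {z : ℂ × St | shift z.1 z.2 ∈ T.Int → u (shift z.1 z.2) = u z.2} :=
    MeasurableSet.imp (continuous_shift.measurable T.measurableSet_Int)
      (measurableSet_eq_fun (hu.comp continuous_shift.measurable) (hu.comp measurable_snd))
  have h2 := (Measure.ae_ae_comm (μ := (volume : Measure ℂ)) (ν := T.mu) hS).1 (ae_of_all _ h1)
  refine ⟨fun g => (∫ y, u ((y, g.1), g.2) ∂T.area) / T.area.real univ, ?_, ?_⟩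
  · refine Measurable.div_const ?_ _
    exact (StronglyMeasurable.integral_prod_right' (ν := T.area)
      (f := fun z : (Sph × Bool) × Plane => u ((z.2, z.1.1), z.1.2))
      (hu.comp reord.symm.measurable).stronglyMeasurable).measurable
  · filter_upwards [h2] with p hp
    have h3 : MeasurePreserving (fun y : Plane => (frC p).symm (y + -p.1.1)) volume volume :=
      (frC p).symm.measurePreserving.comp (measurePreserving_add_right _ _)
    have h4 : ∀ᵐ y ∂T.area, u ((y, p.1.2), p.2) = u p := by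
      rw [area, ae_restrict_iff' T.measurableSet_IntP]
      filter_upwards [h3.quasiMeasurePreserving.ae hp] with y hy hy'
      have e : shift ((frC p).symm (y + -p.1.1)) p = ((y, p.1.2), p.2) := by
        apply st_ext <;> simp [← frC_apply]
      rw [e] at hy
      exact hy hy'
    have h5 : T.area.real univ ≠ 0 := by
      simp only [Measure.real, area, Measure.restrict_apply_univ]
      exact (ENNReal.toReal_pos T.volume_IntP_pos.ne' T.volume_IntP_lt_top.ne).ne'
    rw [integral_congr_ae h4, integral_const, smul_eq_mul]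
    field_simp

lemma frame_fun_refl {c : Sph × Bool → ℝ}
    (hinv : ∀ θ t, ∀ᵐ p ∂T.mu, c ((T.fl θ t p).1.2, (T.fl θ t p).2) = c (p.1.2, p.2))
    (i : Fin 3) : ∀ᵐ g ∂frM, c (T.LS i g.1, !g.2) = c g := by
  obtain ⟨m, hm0, hm1⟩ : ∃ m, T.h i m = 0 ∧ ∀ j, j ≠ i → 0 < T.h j m :=
    ⟨_, (T.mem_openSide i _).1 ⟨1 / 2, ⟨by norm_num, by norm_num⟩, rfl⟩⟩
  have hδ : 0 < T.d ((m, v0), true) := by
    rw [d_pos_iff]
    intro j hj
    have hj : m = T.A j := hj
    rcases fin3_cases i j with rfl | rfl | rfl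
    · rw [hj] at hm0; exact (T.h_self_pos _).ne' hm0
    · have := hm1 (i + 2) (by fin_cases i <;> decide)
      rw [hj, T.h_vertex (by fin_cases i <;> decide)] at this
      exact lt_irrefl _ this
    · have := hm1 (i + 1) (by fin_cases i <;> decide)
      rw [hj, T.h_vertex (by fin_cases i <;> decide)] at this
      exact lt_irrefl _ this
  set δ := T.d ((m, v0), true) with hδ'
  set t := T.κ * δ / 2 with ht
  have ht0 : 0 < t := by have := T.κ_pos; positivity
  have h1 : ∀ᵐ p ∂T.mu, ∀ k : ℤ, rot (k * (Real.pi / 2)) p ∈ T.Good ∧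
      c ((T.fl (k * (Real.pi / 2)) t p).1.2, (T.fl (k * (Real.pi / 2)) t p).2) =
        c (p.1.2, p.2) :=
    ae_all_iff.2 fun k => (T.ae_rot_good _).and (hinv _ _)
  filter_upwards [T.ae_ae_of_mu h1] with g hg
  obtain ⟨k, hk⟩ := exists_dir (T.norm_n i) (norm_sph g.1) g.2
  set θ : ℝ := k * (Real.pi / 2)
  set b := ⟪T.n i, frv g.1 g.2 (ex θ)⟫ with hb
  let O : Set Plane := {x | (∀ j, 0 < T.h j x) ∧ dist x m < δ / 2 ∧ T.h i x + t * b < 0}
  have o1 : IsOpen {x : Plane | dist x m < δ / 2} := isOpen_lt (by fun_prop) continuous_const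
  have o2 : IsOpen {x : Plane | T.h i x + t * b < 0} :=
    isOpen_lt ((T.continuous_h i).add continuous_const) continuous_const
  have hO : IsOpen O := T.isOpen_intP.and (o1.and o2)
  have hne : O.Nonempty := by
    let O' : Set Plane := {x | (∀ j, j ≠ i → 0 < T.h j x) ∧ dist x m < δ / 2 ∧
      T.h i x + t * b < 0}
    have hO' : IsOpen O' := by
      refine IsOpen.and ?_ (o1.and o2)
      have : {x | ∀ j, j ≠ i → 0 < T.h j x} = ⋂ j, ⋂ (_ : j ≠ i), {x | 0 < T.h j x} := by
        ext x; simp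
      rw [this]
      exact isOpen_iInter_of_finite fun j => isOpen_iInter_of_finite fun _ =>
        isOpen_lt continuous_const (T.continuous_h j)
    have hc : Continuous fun s : ℝ => m + s • T.n i := by fun_prop
    have h2 : ∀ᶠ s : ℝ in 𝓝 0, m + s • T.n i ∈ O' :=
      hc.continuousAt.eventually_mem (hO'.mem_nhds (by
        simp only [zero_smul, add_zero]
        exact ⟨hm1, by simpa using hδ, by rw [hm0, zero_add]; exact mul_neg_of_pos_of_neg ht0 hk⟩))
    obtain ⟨s, hs1, hs2⟩ :=
      ((h2.filter_mono (nhdsWithin_le_nhds (s := Ioi 0))).and self_mem_nhdsWithin).exists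
    refine ⟨_, fun j => ?_, hs1.2⟩
    by_cases hj : j = i
    · rw [hj, h_add, hm0, real_inner_smul_right, inner_n_n]; simpa using hs2
    · exact hs1.1 j hj
  have hpos : T.area O ≠ 0 := by
    rw [area, Measure.restrict_apply hO.measurableSet, inter_eq_self_of_subset_left fun x hx => hx.1]
    exact (hO.measure_pos _ hne).ne'
  obtain ⟨x, hxO, hx⟩ := Measure.exists_mem_of_measure_ne_zero_of_ae hpos (ae_restrict_of_ae hg)
  obtain ⟨hx1, hx2⟩ := hx k
  set p : St := ((x, g.1), g.2) with hp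
  have hpM : p ∈ T.M0 := T.int_subset hxO.1
  have hd : t < T.κ * T.d p := by
    have := (abs_le.1 (T.abs_d_sub p ((m, v0), true))).1
    have h3 : dist p.1.1 m < δ / 2 := hxO.2.1
    have h4 : δ / 2 < T.d p := by simp only at this; linarith
    rw [ht, mul_div_assoc]
    exact mul_lt_mul_of_pos_left h4 T.κ_pos
  have hn : ‖(t : ℂ) * ex θ‖ < T.κ * T.d p := by simpa [norm_ex, abs_of_pos ht0] using hd
  have hbad : T.Bad i (shift (t * ex θ) p) := by
    left
    rw [shift_pos, h_add, fr_real_mul, real_inner_smul_right]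
    exact hxO.2.2
  obtain ⟨j, hj⟩ := T.exists_near hpM
  have hij : i = j := by
    by_contra hne
    exact T.not_bad_of_pos (hj _ (by rw [dist_shift]; exact hn) i hne) hbad
  subst hij
  rw [T.fl_eq_step hx1 (by rwa [abs_of_pos ht0])] at hx2
  rcases T.step_spec hpM hj hn with ⟨h5, _⟩ | ⟨_, h5⟩
  · exact absurd hbad h5
  · rw [h5] at hx2; exact hx2

theorem const_of_inv (hirr : ∃ i : Fin 3,
      Irrational (EuclideanGeometry.angle (T.A (i + 1)) (T.A i) (T.A (i + 2)) / Real.pi))
    {u : St → ℝ} (hu : Measurable u) (hinv : ∀ θ t, ∀ᵐ p ∂T.mu, u (T.fl θ t p) = u p) :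
    ∃ k : ℝ, ∀ᵐ p ∂T.mu, u p = k := by
  obtain ⟨c, hc, huc⟩ := T.exists_frame_fun hu hinv
  have hr := T.frame_fun_refl (c := c) fun θ t => by
    filter_upwards [hinv θ t, huc, (T.mp_fl θ t).quasiMeasurePreserving.ae huc] with p h1 h2 h3
    rw [← h3, h1, h2]
  obtain ⟨j, k, β, hβ, hL⟩ := T.exists_rot hirr
  have h1 : ∀ᵐ g ∂frM, c (rotS true β g.1, g.2) = c g := by
    filter_upwards [hr k, (T.mp_LS_fr k).quasiMeasurePreserving.ae (hr j)] with g h1 h2
    rw [← h1, ← h2, Bool.not_not]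
    congr 2
    exact Subtype.ext (hL _).symm
  obtain ⟨a, ha⟩ := const_of_rot hβ (f := fun v => c (v, true))
    (hc.comp measurable_prodMk_right) (ae_fr_iff h1 true)
  have ha' : ∀ᵐ v ∂sphM, c (v, false) = a := by
    filter_upwards [ae_fr_iff (hr 0) false, (T.mp_LS 0).quasiMeasurePreserving.ae ha] with v h1 h2
    rw [← h1]; exact h2
  have h2 : ∀ᵐ g ∂frM, c g = a := by
    rw [Measure.ae_prod_iff_ae_ae (measurableSet_eq_fun hc measurable_const)]
    filter_upwards [ha, ha'] with v h1 h2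
    exact ae_of_all _ fun e => by cases e <;> assumption
  refine ⟨a, ?_⟩
  filter_upwards [huc, (Measure.quasiMeasurePreserving_fst.comp
    T.mp_reord_mu.quasiMeasurePreserving).ae h2] with p h3 h4
  rw [h3]; exact h4

end Tri

end Crest.Agent.R103D
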