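import Crest.Agent.R103D.Sys
import Crest.Agent.R103D.Cut
import Crest.Agent.R103D.Hol
import Crest.Agent.R103D.ChainU
import Crest.Agent.R103D.ChainE

/-!
# Row 103: from the analysis theorem to weak mixing
-/

set_option autoImplicit false
open MeasureTheory Filter Topology Set
open scoped symmDiff
open Crest.AnalysisR.Billiard

namespace Crest.Agent.R103D

lemma scont_of_ae_tendsto {Ω : Type*} [TopologicalSpace Ω] [TopologicalSpace.MetrizableSpace Ω]
    [MeasurableSpace Ω] [BorelSpace Ω]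
    (ν : Measure Ω) [IsFiniteMeasure ν] {F : ℝ → Ω → Ω} (hF : ∀ t, MeasurePreserving (F t) ν ν)
    (hc : ∀ᵐ p ∂ν, Tendsto (fun t => F t p) (𝓝 0) (𝓝 p)) : SCont ν F := by
  intro f hf
  rw [ENNReal.tendsto_nhds_zero]
  intro ε hε
  have hε3 : ε / 3 ≠ 0 := by simp [hε.ne']
  obtain ⟨g, hg, hg'⟩ := hf.exists_boundedContinuous_eLpNorm_sub_le (by simp) hε3
  have h1 : Tendsto (fun t => eLpNorm (fun p => g (F t p) - g p) 2 ν) (𝓝 0) (𝓝 0) := by
    simp only [eLpNorm_eq_lintegral_rpow_enorm_toReal two_ne_zero ENNReal.ofNat_ne_top]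
    have h2 : Tendsto (fun t => ∫⁻ p, ‖g (F t p) - g p‖ₑ ^ (2 : ENNReal).toReal ∂ν) (𝓝 0)
        (𝓝 (∫⁻ _, 0 ∂ν)) := by
      refine tendsto_lintegral_filter_of_dominated_convergence
        (fun _ => ENNReal.ofReal (2 * ‖g‖) ^ (2 : ENNReal).toReal) ?_ ?_ ?_ ?_
      · refine Eventually.of_forall fun t => ?_
        exact ((g.continuous.measurable.comp (hF t).measurable).sub
          g.continuous.measurable).enorm.pow_const _
      · refine Eventually.of_forall fun t => ae_of_all _ fun p => ?_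
        refine ENNReal.rpow_le_rpow ?_ (by simp)
        rw [← ofReal_norm]
        exact ENNReal.ofReal_le_ofReal ((norm_sub_le _ _).trans
          (by linarith [g.norm_coe_le_norm (F t p), g.norm_coe_le_norm p]))
      · rw [lintegral_const]
        exact ENNReal.mul_ne_top (ENNReal.rpow_ne_top_of_nonneg (by simp) ENNReal.ofReal_ne_top)
          (measure_ne_top _ _)
      · filter_upwards [hc] with p hp
        have h3 : Tendsto (fun t => g (F t p) - g p) (𝓝 0) (𝓝 (g p - g p)) :=
          ((g.continuous.tendsto p).comp hp).sub_const _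
        have h4 := (ENNReal.continuous_rpow_const (y := (2 : ENNReal).toReal)).continuousAt.tendsto.comp
          h3.enorm
        simpa [Function.comp_def] using h4
    have h3 := (ENNReal.continuous_rpow_const
      (y := 1 / (2 : ENNReal).toReal)).continuousAt.tendsto.comp h2
    simpa [Function.comp_def] using h3
  filter_upwards [(ENNReal.tendsto_nhds_zero.1 h1) (ε / 3) (pos_iff_ne_zero.2 hε3)] with t ht
  have m1 : AEStronglyMeasurable ((f - ⇑g) ∘ F t) ν :=
    (hf.sub hg').1.comp_measurePreserving (hF t)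
  have m2 : AEStronglyMeasurable (fun p => g (F t p) - g p) ν :=
    (hg'.1.comp_measurePreserving (hF t)).sub hg'.1
  have e : (fun p => f (F t p) - f p) =
      ((f - ⇑g) ∘ F t + fun p => g (F t p) - g p) - (f - ⇑g) := by
    ext p; simp
  rw [e]
  calc _ ≤ eLpNorm ((f - ⇑g) ∘ F t + fun p => g (F t p) - g p) 2 ν + eLpNorm (f - ⇑g) 2 ν :=
        eLpNorm_sub_le (m1.add m2) (hf.sub hg').1 (by norm_num)
    _ ≤ (ε / 3 + ε / 3) + ε / 3 := by
        refine add_le_add ((eLpNorm_add_le m1 m2 (by norm_num)).trans (add_le_add ?_ ht)) hg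
        rwa [eLpNorm_comp_measurePreserving (hf.sub hg').1 (hF t)]
    _ = ε := ENNReal.add_thirds ε

section Prod

variable {α : Type*} [TopologicalSpace α] [TopologicalSpace.MetrizableSpace α]
  [MeasurableSpace α] [BorelSpace α]
  [SecondCountableTopology α] {μ : Measure α} [IsFiniteMeasure μ] {F : ℝ → α → α}

lemma mflow_fst (hF : ∀ t, MeasurePreserving (F t) μ μ) (h0 : ∀ p, F 0 p = p)
    (ha : ∀ s t p, F (s + t) p = F s (F t p))
    (hc : ∀ᵐ p ∂μ, Tendsto (fun t => F t p) (𝓝 0) (𝓝 p)) :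
    MFlow (μ.prod μ) fun t z => (F t z.1, z.2) := by
  have mp : ∀ t, MeasurePreserving (fun z : α × α => (F t z.1, z.2)) (μ.prod μ) (μ.prod μ) :=
    fun t => (hF t).prod (MeasurePreserving.id μ)
  refine ⟨mp, fun z => by simp [h0], fun s t z => by simp [ha], scont_of_ae_tendsto _ mp ?_⟩
  filter_upwards [Measure.quasiMeasurePreserving_fst.ae hc] with z hz
  exact hz.prodMk_nhds tendsto_const_nhds

lemma mflow_snd (hF : ∀ t, MeasurePreserving (F t) μ μ) (h0 : ∀ p, F 0 p = p)
    (ha : ∀ s t p, F (s + t) p = F s (F t p))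
    (hc : ∀ᵐ p ∂μ, Tendsto (fun t => F t p) (𝓝 0) (𝓝 p)) :
    MFlow (μ.prod μ) fun t z => (z.1, F t z.2) := by
  have mp : ∀ t, MeasurePreserving (fun z : α × α => (z.1, F t z.2)) (μ.prod μ) (μ.prod μ) :=
    fun t => (MeasurePreserving.id μ).prod (hF t)
  refine ⟨mp, fun z => by simp [h0], fun s t z => by simp [ha], scont_of_ae_tendsto _ mp ?_⟩
  filter_upwards [Measure.quasiMeasurePreserving_snd.ae hc] with z hz
  exact tendsto_const_nhds.prodMk_nhds hz

end Prod

section Rect

variable {α : Type*} [MeasurableSpace α] {μ : Measure α} [IsFiniteMeasure μ]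

lemma rect_of_inv {ι : Type*} {F : ι → α → α}
    (herg : ∀ u : α → ℝ, Measurable u → (∀ j, ∀ᵐ p ∂μ, u (F j p) = u p) → ∃ k, ∀ᵐ p ∂μ, u p = k)
    {S : Set (α × α)} (hS : MeasurableSet S)
    (hinv : ∀ j, (fun z : α × α => (F j z.1, z.2)) ⁻¹' S =ᵐ[μ.prod μ] S)
    {A B : Set α} (hA : MeasurableSet A) (hB : MeasurableSet B) :
    μ univ * μ.prod μ (S ∩ A ×ˢ B) = μ A * μ.prod μ (S ∩ univ ×ˢ B) := by
  have hm : Measurable fun p => μ (Prod.mk p ⁻¹' (S ∩ univ ×ˢ B)) :=
    measurable_measure_prodMk_left (hS.inter (MeasurableSet.univ.prod hB))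
  obtain ⟨k, hk⟩ := herg (fun p => (μ (Prod.mk p ⁻¹' (S ∩ univ ×ˢ B))).toReal) hm.ennreal_toReal
    fun j => by
      filter_upwards [Measure.ae_ae_of_ae_prod (hinv j)] with p hp
      congr 1
      refine measure_congr (hp.mono fun q hq => ?_)
      have hq' : (F j p, q) ∈ S ↔ (p, q) ∈ S := hq.to_iff
      apply propext
      show (F j p, q) ∈ S ∩ univ ×ˢ B ↔ (p, q) ∈ S ∩ univ ×ˢ B
      simp [hq']
  have key : ∀ A, MeasurableSet A → μ.prod μ (S ∩ A ×ˢ B) = ENNReal.ofReal k * μ A := by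
    intro A hA
    rw [Measure.prod_apply (hS.inter (hA.prod hB)), ← setLIntegral_const,
      ← lintegral_indicator hA]
    refine lintegral_congr_ae (hk.mono fun p hp => ?_)
    by_cases h : p ∈ A
    · simp only [indicator_of_mem h]
      rw [← hp, ENNReal.ofReal_toReal (measure_ne_top _ _)]
      congr 1; ext q; simp [h]
    · simp only [indicator_of_notMem h]
      convert measure_empty (μ := μ)
      ext q; simp [h]
  rw [key A hA, key univ .univ]; ring

lemma null_or_conull {S : Set (α × α)} (hS : MeasurableSet S)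
    (h1 : ∀ A B, MeasurableSet A → MeasurableSet B →
      μ univ * μ.prod μ (S ∩ A ×ˢ B) = μ A * μ.prod μ (S ∩ univ ×ˢ B))
    (h2 : ∀ A B, MeasurableSet A → MeasurableSet B →
      μ univ * μ.prod μ (Prod.swap ⁻¹' S ∩ A ×ˢ B) =
        μ A * μ.prod μ (Prod.swap ⁻¹' S ∩ univ ×ˢ B)) :
    μ.prod μ S = 0 ∨ μ.prod μ Sᶜ = 0 := by
  have sw : ∀ A B, MeasurableSet A → MeasurableSet B →
      μ.prod μ (Prod.swap ⁻¹' S ∩ A ×ˢ B) = μ.prod μ (S ∩ B ×ˢ A) := by
    intro A B hA hB
    rw [← Measure.measurePreserving_swap.measure_preimage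
      (hS.inter (hB.prod hA)).nullMeasurableSet, preimage_inter, preimage_swap_prod]
  have e : (μ univ * μ univ) • (μ.prod μ).restrict S = μ.prod μ S • μ.prod μ := by
    have : IsFiniteMeasure ((μ univ * μ univ) • (μ.prod μ).restrict S) :=
      Measure.smul_finite _ (ENNReal.mul_ne_top (measure_ne_top _ _) (measure_ne_top _ _))
    refine Measure.ext_prod fun {A B} hA hB => ?_
    have a := h2 B univ hB .univ
    rw [sw _ _ hB .univ, sw _ _ .univ .univ, univ_prod_univ, inter_univ] at a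
    rw [Measure.smul_apply, Measure.smul_apply, smul_eq_mul, smul_eq_mul,
      Measure.restrict_apply (hA.prod hB), inter_comm, mul_assoc, h1 A B hA hB, mul_left_comm, a,
      Measure.prod_prod]
    ring
  have := congrArg (fun m : Measure (α × α) => m Sᶜ) e
  simp only [Measure.smul_apply, smul_eq_mul, Measure.restrict_apply hS.compl, compl_inter_self,
    measure_empty, mul_zero] at this
  exact mul_eq_zero.1 this.symm

end Rect

namespace Tri

variable (T : Tri)

lemma exists_sys : ∃ S : Sys (St × St) (T.mu.prod T.mu),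
    (S.X = fun t z => (T.phi t z.1, z.2)) ∧ (S.R = fun t z => (rot t z.1, z.2)) ∧
      (S.W = fun t z => (z.1, T.phi t z.2)) := by
  obtain ⟨C, hC0, hC⟩ := T.exists_mu_r_lt
  have hκ := T.κ_pos
  refine ⟨{
    X := fun t z => (T.phi t z.1, z.2)
    R := fun t z => (rot t z.1, z.2)
    W := fun t z => (z.1, T.phi t z.2)
    d := fun z => T.d z.1
    r := fun s z => T.r s z.1
    K := 2 / T.κ
    C := C * T.mu.real univ
    one_le_K := by rw [le_div_iff₀ hκ]; linarith [T.κ_le]
    C_nonneg := by positivity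
    flowX := mflow_fst T.mp_phi T.phi_zero T.phi_add T.ae_tendsto_phi
    flowR := mflow_fst T.mp_rot rot_zero rot_add (ae_of_all _ fun p => by
      have := (continuous_rot.comp (continuous_id.prodMk (continuous_const (y := p)))).tendsto 0
      simpa [rot_zero, Function.comp_def] using this)
    flowW := mflow_snd T.mp_phi T.phi_zero T.phi_add T.ae_tendsto_phi
    R_per := fun z => by simp [rot_two_pi]
    WX := fun _ _ _ => rfl
    WR := fun _ _ _ => rfl
    d_meas := T.continuous_d.measurable.comp measurable_fst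
    d_R := fun _ _ => rfl
    d_W := fun _ _ => rfl
    d_X := fun t z => T.abs_d_phi t z.1
    loc := fun θ₁ θ₂ θ₃ t₁ t₂ t₃ h => by
      filter_upwards [Measure.quasiMeasurePreserving_fst.ae (T.ae_loc h)] with z hz hd
      exact Prod.ext (hz hd) rfl
    r_meas := fun s => (T.measurable_r s).comp measurable_fst
    r_W := fun _ _ _ => rfl
    r_le := fun s hs z => T.mul_r_le hs z.1
    r_X := fun s hs t z => T.abs_r_phi hs t z.1
    r_Y := fun s hs t => by
      filter_upwards [Measure.quasiMeasurePreserving_fst.ae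
        (T.ae_abs_r_fl hs (Real.pi / 2) t)] with z hz
      refine le_trans hz ?_
      gcongr; norm_num
    r_small := fun s hs hs1 ρ hρ => by
      have : {z : St × St | T.r s z.1 < ρ} = {p | T.r s p < ρ} ×ˢ univ := by ext z; simp
      rw [this, Measure.prod_prod, mul_right_comm, ENNReal.ofReal_mul (by positivity),
        ofReal_measureReal]
      exact mul_le_mul_left (hC s hs hs1 ρ hρ) _ }, rfl, rfl, rfl⟩

theorem weak_mixing_model (hA : AnalysisThm) (hirr : ∃ i : Fin 3,
      Irrational (EuclideanGeometry.angle (T.A (i + 1)) (T.A i) (T.A (i + 2)) / Real.pi))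
    {S : Set (St × St)} (hS : MeasurableSet S)
    (hinv : ∀ t, (fun z : St × St => (T.phi t z.1, T.phi t z.2)) ⁻¹' S =ᵐ[T.mu.prod T.mu] S) :
    T.mu.prod T.mu S = 0 ∨ T.mu.prod T.mu Sᶜ = 0 := by
  obtain ⟨Y, hX, hR, hW⟩ := T.exists_sys
  have key : ∀ S : Set (St × St), MeasurableSet S →
      (∀ t, (fun z : St × St => (T.phi t z.1, T.phi t z.2)) ⁻¹' S =ᵐ[T.mu.prod T.mu] S) →
      ∀ A B, MeasurableSet A → MeasurableSet B → T.mu univ * T.mu.prod T.mu (S ∩ A ×ˢ B) =
        T.mu A * T.mu.prod T.mu (S ∩ univ ×ˢ B) := by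
    intro S hS hinv A B hA' hB
    refine rect_of_inv (F := fun j : ℝ × ℝ => T.fl j.1 j.2)
      (fun u hu h => T.const_of_inv hirr hu fun θ t => h (θ, t)) hS (fun j => ?_) hA' hB
    have := hA _ _ Y S hS (fun t => by rw [hX, hW]; exact hinv t) j.1 j.2
    rw [hX, hR] at this
    exact this
  refine null_or_conull hS (key S hS hinv) (key _ (measurable_swap hS) fun t => ?_)
  exact Measure.measurePreserving_swap.quasiMeasurePreserving.preimage_ae_eq (hinv t)

lemma mp_fst : MeasurePreserving (Prod.fst : St → Phase) T.mu ((2 : ENNReal) • phaseMeasure T.A) :=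
  ⟨measurable_fst, by rw [mu, Measure.map_fst_prod, count_bool]⟩

theorem main (hA : AnalysisThm) (hirr : ∃ i : Fin 3,
      Irrational (EuclideanGeometry.angle (T.A (i + 1)) (T.A i) (T.A (i + 2)) / Real.pi)) :
    (∀ᵐ p ∂(phaseMeasure T.A), (∃ c : Chain T.A, c.Through p) ∧
        ∀ c c' : Chain T.A, c.Through p → c'.Through p →
          ∀ (τ : ℝ) (y y' : Phase), c.IsStateAt τ y → c'.IsStateAt τ y' → y = y') ∧
    ∀ Φ : ℝ → Phase → Phase,
      (∀ᵐ p ∂(phaseMeasure T.A), ∃ c : Chain T.A, c.Through p ∧ ∀ τ : ℝ, c.IsStateAt τ (Φ τ p)) →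
      ∀ s : Set (Phase × Phase), MeasurableSet s →
        (∀ τ : ℝ, ((phaseMeasure T.A).prod (phaseMeasure T.A))
            (((fun z : Phase × Phase => (Φ τ z.1, Φ τ z.2)) ⁻¹' s) ∆ s) = 0) →
        ((phaseMeasure T.A).prod (phaseMeasure T.A)) s = 0 ∨
          ((phaseMeasure T.A).prod (phaseMeasure T.A)) sᶜ = 0 := by
  constructor
  · filter_upwards [Measure.ae_ae_of_ae_prod (T.ae_good.and T.ae_int)] with p hp
    obtain ⟨h1, h2⟩ := Measure.ae_count_iff.1 hp true
    obtain ⟨c, hc, -⟩ := exists_chain h1 h2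
    exact ⟨⟨c, hc⟩, fun c c' h h' => chain_unique c c' h h'⟩
  · intro Φ hΦ s hs hinv
    have hΦ' : ∀ τ, ∀ᵐ p ∂T.mu, Φ τ p.1 = (T.phi τ p).1 := by
      intro τ
      filter_upwards [T.ae_good, T.ae_int, (T.mp_phi τ).quasiMeasurePreserving.ae T.ae_int,
        (Measure.quasiMeasurePreserving_fst (ν := Measure.count)).ae hΦ] with p h1 h2 h3 ⟨c, h4, h5⟩
      obtain ⟨c', h6, h7⟩ := exists_chain h1 h2
      exact chain_unique c c' h4 h6 τ _ _ (h5 τ) (h7 τ h3)
    have hmp : MeasurePreserving (Prod.map Prod.fst Prod.fst : St × St → Phase × Phase)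
        (T.mu.prod T.mu) ((4 : ENNReal) • (phaseMeasure T.A).prod (phaseMeasure T.A)) := by
      have := T.mp_fst.prod T.mp_fst
      rwa [Measure.prod_smul_left, Measure.prod_smul_right, smul_smul,
        (by norm_num : (2 : ENNReal) * 2 = 4)] at this
    have := T.weak_mixing_model hA hirr (hmp.measurable hs) fun τ => by
      have h1 := hmp.quasiMeasurePreserving.ae
        (Measure.ae_smul_measure (measure_symmDiff_eq_zero_iff.1 (hinv τ)) (4 : ENNReal))
      filter_upwards [h1, Measure.quasiMeasurePreserving_fst.ae (hΦ' τ),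
        Measure.quasiMeasurePreserving_snd.ae (hΦ' τ)] with z h2 h3 h4
      have h5 : ((Φ τ z.1.1, Φ τ z.2.1) ∈ s) = ((z.1.1, z.2.1) ∈ s) := h2
      rw [h3, h4] at h5
      exact h5
    rw [← preimage_compl, hmp.measure_preimage hs.nullMeasurableSet,
      hmp.measure_preimage hs.compl.nullMeasurableSet] at this
    simpa using this

end Tri

end Crest.Agent.R103D
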