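import Crest.Agent.R103D.Fold

/-!
# Row 103: local orbits, uniqueness, and the flow `phi`
-/

set_option autoImplicit false
open MeasureTheory Filter Topology Set
open scoped RealInnerProductSpace
open Crest.AnalysisR.Billiard

namespace Crest.Agent.R103D

namespace Tri

variable (T : Tri)

lemma ev_small {c : ℝ} (hc : 0 < c) : ∀ᶠ τ : ℝ in 𝓝 0, 2 * |τ| < c := by
  have : Tendsto (fun τ : ℝ => 2 * |τ|) (𝓝 0) (𝓝 (2 * |0|)) :=
    (continuous_const.mul continuous_abs).tendsto 0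
  simp only [abs_zero, mul_zero] at this
  exact this.eventually (gt_mem_nhds hc)

lemma LocOrb.ev {T : Tri} {γ : ℝ → St} {t : ℝ} (h : T.LocOrb γ t) :
    ∀ᶠ y : ℝ in 𝓝 t, γ y = T.step ((y - t : ℝ) : ℂ) (γ t) ∧ 2 * |y - t| < T.κ * T.d (γ t) := by
  have h1 := h.2.2.and (ev_small (mul_pos T.κ_pos h.2.1))
  have h2 : Tendsto (fun y : ℝ => y - t) (𝓝 t) (𝓝 0) := by
    have : Continuous fun y : ℝ => y - t := by fun_prop
    simpa using this.tendsto t
  filter_upwards [h2.eventually h1] with y hy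
  simpa using hy

lemma locOrb_unique {γ γ' : ℝ → St} {I : Set ℝ} (hI : IsPreconnected I)
    (h : ∀ t ∈ I, T.LocOrb γ t) (h' : ∀ t ∈ I, T.LocOrb γ' t) {t₀ t : ℝ} (h₀ : t₀ ∈ I)
    (ht : t ∈ I) (he : γ t₀ = γ' t₀) : γ t = γ' t := by
  refine hI.induction₂' (fun x y => γ x = γ' x → γ y = γ' y) ?_ ?_ h₀ ht he
  · intro x hx
    apply mem_nhdsWithin_of_mem_nhds
    filter_upwards [(h x hx).ev, (h' x hx).ev] with y hy hy'
    refine ⟨fun e => by rw [hy.1, hy'.1, e], fun e => ?_⟩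
    rw [← T.step_neg_step (a := ((y - x : ℝ) : ℂ)) (h x hx).1 (by simpa only [Complex.norm_real, Real.norm_eq_abs] using hy.2), ← hy.1, e,
      hy'.1, T.step_neg_step (h' x hx).1 (by simpa only [Complex.norm_real, Real.norm_eq_abs] using hy'.2)]
  · exact fun x y z _ _ _ h1 h2 e => h2 (h1 e)

lemma LocOrb.congr {T : Tri} {γ γ' : ℝ → St} {t : ℝ} (h : T.LocOrb γ t)
    (he : γ' =ᶠ[𝓝 t] γ) : T.LocOrb γ' t := by
  have h0 : γ' t = γ t := he.self_of_nhds
  refine ⟨h0 ▸ h.1, h0 ▸ h.2.1, ?_⟩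
  have h2 : Tendsto (fun τ : ℝ => t + τ) (𝓝 0) (𝓝 t) := by
    have : Continuous fun τ : ℝ => t + τ := by fun_prop
    simpa using this.tendsto 0
  filter_upwards [h.2.2, h2.eventually he] with τ h1 h3
  rw [h3, h1, h0]

lemma LocOrb.shift_time {T : Tri} {γ : ℝ → St} {t s : ℝ} (h : T.LocOrb γ (t + s)) :
    T.LocOrb (fun u => γ (u + s)) t := by
  refine ⟨h.1, h.2.1, h.2.2.mono fun τ hτ => ?_⟩
  show γ (t + τ + s) = _
  rw [← hτ, add_right_comm]

/-- applying a short step to a local orbit gives a local orbit -/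
lemma LocOrb.step {T : Tri} {γ : ℝ → St} {t : ℝ} (h : T.LocOrb γ t) {a : ℂ}
    (ha : ‖a‖ < T.κ * T.d (γ t)) : T.LocOrb (fun u => T.step a (γ u)) t := by
  refine ⟨T.step_mem h.1 ha, T.d_step_pos h.1 ha, ?_⟩
  filter_upwards [h.2.2, ev_small (sub_pos.2 ha)] with τ h1 h2
  have h3 : ‖a‖ + ‖(τ : ℂ)‖ < T.κ * T.d (γ t) := by
    rw [Complex.norm_real, Real.norm_eq_abs]; linarith [abs_nonneg τ]
  rw [h1, T.step_step h.1 h3, T.step_step h.1 (by linarith), add_comm]

lemma locOrb_step {p : St} (hp : p ∈ T.M0) {t : ℝ} (ht : |t| < T.κ * T.d p) :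
    T.LocOrb (fun u : ℝ => T.step (u : ℂ) p) t := by
  have ht' : ‖(t : ℂ)‖ < T.κ * T.d p := by simpa using ht
  refine ⟨T.step_mem hp ht', T.d_step_pos hp ht', ?_⟩
  filter_upwards [ev_small (sub_pos.2 ht)] with τ h2
  rw [T.step_step hp (by simp only [Complex.norm_real, Real.norm_eq_abs]; linarith [abs_nonneg τ])]
  congr 1; push_cast; ring

lemma locOrb_shift {p : St} {t : ℝ} (ht : shift (t : ℂ) p ∈ T.Int) :
    T.LocOrb (fun u : ℝ => shift (u : ℂ) p) t := by
  refine ⟨T.int_subset ht, T.d_pos_of_int ht, ?_⟩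
  filter_upwards [T.eventually_step_eq_shift ht] with τ h
  rw [h.2, shift_shift]; congr 1; push_cast; ring

lemma phi_of_not_good {p : St} (hp : p ∉ T.Good) (t : ℝ) : T.phi t p = p := by
  simp [phi, hp]

lemma phi_zero (p : St) : T.phi 0 p = p := by
  by_cases hp : p ∈ T.Good
  · simp only [phi, hp, dif_pos]; exact hp.choose_spec.1
  · exact T.phi_of_not_good hp 0

lemma locOrb_phi {p : St} (hp : p ∈ T.Good) (t : ℝ) : T.LocOrb (fun u => T.phi u p) t := by
  have : (fun u => T.phi u p) = hp.choose := by ext1 u; simp only [phi, hp, dif_pos]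
  rw [this]; exact hp.choose_spec.2 t

lemma phi_eq_of_locOrb {p : St} (hp : p ∈ T.Good) {γ : ℝ → St} (h0 : γ 0 = p) {t : ℝ}
    (hγ : ∀ u ∈ uIcc 0 t, T.LocOrb γ u) : T.phi t p = γ t :=
  T.locOrb_unique (γ := fun u => T.phi u p) isPreconnected_uIcc (fun u _ => T.locOrb_phi hp u) hγ
    left_mem_uIcc right_mem_uIcc (by rw [h0]; exact T.phi_zero p)

lemma phi_mem_good {p : St} (hp : p ∈ T.Good) (s : ℝ) : T.phi s p ∈ T.Good :=
  ⟨fun u => T.phi (u + s) p, by simp, fun t => (T.locOrb_phi hp (t + s)).shift_time⟩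

lemma phi_add (s t : ℝ) (p : St) : T.phi (s + t) p = T.phi s (T.phi t p) := by
  by_cases hp : p ∈ T.Good
  · exact (T.phi_eq_of_locOrb (T.phi_mem_good hp t) (γ := fun u => T.phi (u + t) p) (by simp)
      fun u _ => (T.locOrb_phi hp (u + t)).shift_time).symm
  · simp [T.phi_of_not_good hp]

lemma good_subset : T.Good ⊆ T.M0 := fun p hp => by
  simpa [phi_zero] using (T.locOrb_phi hp 0).1

lemma phi_mem_M0 {p : St} (hp : p ∈ T.Good) (t : ℝ) : T.phi t p ∈ T.M0 :=
  (T.locOrb_phi hp t).1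

lemma d_phi_pos {p : St} (hp : p ∈ T.Good) (t : ℝ) : 0 < T.d (T.phi t p) :=
  (T.locOrb_phi hp t).2.1

lemma abs_le_of_mem_uIcc {t u : ℝ} (hu : u ∈ uIcc 0 t) : |u| ≤ |t| := by
  have := abs_sub_left_of_mem_uIcc hu
  simpa using this

lemma phi_eq_step {p : St} (hp : p ∈ T.Good) {t : ℝ} (ht : |t| < T.κ * T.d p) :
    T.phi t p = T.step (t : ℂ) p :=
  T.phi_eq_of_locOrb hp (γ := fun u : ℝ => T.step (u : ℂ) p)
    (by simpa using T.step_zero (T.good_subset hp))
    fun u hu => T.locOrb_step (T.good_subset hp) ((abs_le_of_mem_uIcc hu).trans_lt ht)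

lemma phi_eq_shift {p : St} (hp : p ∈ T.Good) {t : ℝ}
    (ht : ∀ u ∈ uIcc 0 t, shift (u : ℂ) p ∈ T.Int) : T.phi t p = shift (t : ℂ) p :=
  T.phi_eq_of_locOrb hp (γ := fun u : ℝ => shift (u : ℂ) p) (by simpa using shift_zero p)
    fun u hu => T.locOrb_shift (ht u hu)

/-- long thin commutation -/
lemma phi_step_comm {p : St} (hp : p ∈ T.Good) {a : ℂ} (hq : T.step a p ∈ T.Good) {t : ℝ}
    (ht : ∀ u ∈ uIcc 0 t, ‖a‖ < T.κ * T.d (T.phi u p)) :
    T.phi t (T.step a p) = T.step a (T.phi t p) :=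
  T.phi_eq_of_locOrb hq (γ := fun u : ℝ => T.step a (T.phi u p)) (by simp [phi_zero])
    fun u hu => (T.locOrb_phi hp u).step (ht u hu)

lemma dist_phi (s t : ℝ) (p : St) : dist (T.phi s p).1.1 (T.phi t p).1.1 ≤ |s - t| := by
  by_cases hp : p ∈ T.Good
  swap
  · simp [T.phi_of_not_good hp]
  -- the relation is transitive only along monotone chains; use the one-sided version
  have key : ∀ a b : ℝ, a ≤ b → dist (T.phi b p).1.1 (T.phi a p).1.1 ≤ b - a := by
    intro a b hab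
    have hloc : ∀ x : ℝ, ∀ᶠ y in 𝓝 x, dist (T.phi y p).1.1 (T.phi x p).1.1 ≤ |y - x| := by
      intro x
      filter_upwards [(T.locOrb_phi hp x).ev] with y hy
      have h1 : T.phi y p = T.step ((y - x : ℝ) : ℂ) (T.phi x p) := hy.1
      rw [h1]
      have := T.dist_step (a := ((y - x : ℝ) : ℂ)) (T.phi_mem_M0 hp x)
        (by simp only [Complex.norm_real, Real.norm_eq_abs]; linarith [hy.2, abs_nonneg (y - x)])
      simpa only [Complex.norm_real, Real.norm_eq_abs] using this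
    have hcont : Continuous fun x => (T.phi x p).1.1 := by
      rw [continuous_iff_continuousAt]
      intro x
      rw [ContinuousAt, tendsto_iff_dist_tendsto_zero]
      have h0 : Tendsto (fun y : ℝ => |y - x|) (𝓝 x) (𝓝 0) := by
        have := ((continuous_id.sub (continuous_const (y := x))).abs).tendsto x
        simpa using this
      exact squeeze_zero' (Eventually.of_forall fun _ => dist_nonneg) (hloc x) h0
    have hcl : IsClosed ({x | dist (T.phi x p).1.1 (T.phi a p).1.1 ≤ x - a} ∩ Icc a b) :=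
      (isClosed_le (hcont.dist continuous_const) (continuous_id.sub continuous_const)).inter
        isClosed_Icc
    have := hcl.Icc_subset_of_forall_mem_nhdsWithin (by simp) (fun x hx => ?_)
    · exact this (right_mem_Icc.2 hab)
    · filter_upwards [mem_nhdsWithin_of_mem_nhds (hloc x), self_mem_nhdsWithin] with y hy hy'
      have h1 : dist (T.phi x p).1.1 (T.phi a p).1.1 ≤ x - a := hx.1
      have h2 : x < y := hy'
      rw [abs_of_pos (sub_pos.2 h2)] at hy
      show dist (T.phi y p).1.1 (T.phi a p).1.1 ≤ y - a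
      linarith [dist_triangle (T.phi y p).1.1 (T.phi x p).1.1 (T.phi a p).1.1]
  rcases le_total s t with h | h
  · rw [dist_comm, abs_sub_comm, abs_of_nonneg (sub_nonneg.2 h)]; exact key s t h
  · rw [abs_of_nonneg (sub_nonneg.2 h)]; exact key t s h

lemma continuous_phi_pos (p : St) : Continuous fun t => (T.phi t p).1.1 :=
  (LipschitzWith.of_dist_le_mul (K := 1) fun s t => by
    simpa [Real.dist_eq] using T.dist_phi s t p).continuous

lemma abs_d_phi_sub (s t : ℝ) (p : St) : |T.d (T.phi s p) - T.d (T.phi t p)| ≤ |s - t| :=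
  (T.abs_d_sub _ _).trans (T.dist_phi s t p)

lemma abs_d_phi (t : ℝ) (p : St) : |T.d (T.phi t p) - T.d p| ≤ |t| := by
  simpa [phi_zero] using T.abs_d_phi_sub t 0 p

lemma continuous_d_phi (p : St) : Continuous fun t => T.d (T.phi t p) :=
  (Metric.continuous_infDist_pt _).comp (T.continuous_phi_pos p)

lemma fl_eq_step {θ t : ℝ} {p : St} (hp : rot θ p ∈ T.Good) (ht : |t| < T.κ * T.d p) :
    T.fl θ t p = T.step (t * ex θ) p := by
  rw [fl, T.phi_eq_step hp ht, step_rot, rot_neg_rot, mul_comm]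

lemma fl_eq_shift {θ t : ℝ} {p : St} (hp : rot θ p ∈ T.Good) (h0 : p ∈ T.Int)
    (h1 : shift (t * ex θ) p ∈ T.Int) : T.fl θ t p = shift (t * ex θ) p := by
  rw [fl, T.phi_eq_shift hp, shift_rot, rot_neg_rot, mul_comm]
  intro u hu i
  have e0 := h0 i
  have e1 := h1 i
  rw [shift_rot]
  simp only [rot_pos, shift_pos, h_add, mul_comm (ex θ), fr_real_mul, real_inner_smul_right]
    at e0 e1 ⊢
  rcases mem_uIcc.1 hu with ⟨h2, h3⟩ | ⟨h2, h3⟩ <;>
  rcases le_total 0 ⟪T.n i, fr p (ex θ)⟫ with h4 | h4 <;> nlinarith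

lemma tendsto_phi {p : St} (hp : p ∈ T.Good) (hi : p ∈ T.Int) :
    Tendsto (fun t => T.phi t p) (𝓝 0) (𝓝 p) := by
  have hc : Continuous fun τ : ℝ => shift (τ : ℂ) p :=
    continuous_shift.comp (Complex.continuous_ofReal.prodMk continuous_const)
  have h1 := hc.tendsto 0
  simp only [Complex.ofReal_zero, shift_zero] at h1
  refine h1.congr' ?_
  filter_upwards [T.eventually_step_eq_shift hi, (T.locOrb_phi hp 0).2.2] with τ h2 h3
  simp only [zero_add, phi_zero] at h3
  rw [h3, h2.2]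

end Tri

end Crest.Agent.R103D
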